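import Vale.Agent.P034.Series

/-!
The expected cost of the cover family.
-/

namespace Vale.Agent.P034

open Finset
open scoped Classical

namespace LevelSys

variable {X : Type} [Fintype X] (D : LevelSys X)

lemma pieces_subset_space {m : ℤ} (hm : m ∈ D.stages) {W : Finset (X × ℕ)} {H : Finset X}
    (hH : H ∈ D.Hs) : D.pieces m W H ⊆ space X (2 * D.top + 1) := by
  intro c hc
  obtain ⟨h1, h2⟩ := D.mem_pieces.mp hc
  rw [mem_space, h2]
  have := D.lev_le H hH c.1 ((D.mem_res).mp h1).1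
  obtain ⟨ha, hb⟩ := Finset.mem_Icc.mp hm
  unfold dep
  omega

lemma stage_cost_le {q : ℝ} (hq : 0 ≤ q) {m : ℤ} (hm : m ∈ D.stages) {B : ℝ}
    (hB : ∀ Z, ∑ A ∈ D.valid (2 * D.top + 1) m Z, ∏ c ∈ A, xw c.2 ≤ B) :
    ∑ W ∈ (space X (2 * D.top + 1)).powerset,
      mu q (2 * D.top + 1) W * ∑ T ∈ D.coverAt m W, q ^ T.card ≤ B := by
  set r := 2 * D.top + 1 with hr
  set U := (space X r).powerset with hU
  set PS : Finset (X × ℕ) → Finset (Finset (X × ℕ)) :=
    fun W => (D.Hs.filter (fun H => D.Frag m W H)).image (fun H => D.pieces m W H) with hPS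
  have h1 : ∀ W ∈ U, mu q r W * ∑ T ∈ D.coverAt m W, q ^ T.card ≤
      ∑ A ∈ PS W, mu q r (W ∪ A) * ∏ c ∈ A, xw c.2 := by
    intro W _
    have himg : D.coverAt m W = (PS W).image (fun A => A.image Prod.fst) := by
      rw [hPS, Finset.image_image]
      unfold coverAt
      exact Finset.image_congr fun H _ => (D.pieces_fst m W H).symm
    rw [himg]
    refine (mul_le_mul_of_nonneg_left (Finset.sum_image_le_of_nonneg
      fun u _ => pow_nonneg hq _) (mu_nonneg hq r W)).trans ?_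
    rw [Finset.mul_sum]
    refine Finset.sum_le_sum fun A hA => ?_
    obtain ⟨H, hH, rfl⟩ := Finset.mem_image.mp hA
    obtain ⟨hHs, -⟩ := Finset.mem_filter.mp hH
    rw [D.pieces_fst, ← D.card_pieces]
    exact mu_shift hq (D.pieces_subset_space hm hHs) (D.disjoint_pieces m W H)
  refine (Finset.sum_le_sum h1).trans ?_
  rw [Finset.sum_sigma' U PS (fun W A => mu q r (W ∪ A) * ∏ c ∈ A, xw c.2)]
  have hkey : ∀ x ∈ U.sigma PS, x.2 ⊆ space X r ∧ Disjoint x.1 x.2 ∧
      x.1 ∪ x.2 ⊆ space X r ∧ x.2 ∈ D.valid r m (x.1 ∪ x.2) := by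
    intro x hx
    obtain ⟨hW, hA⟩ := Finset.mem_sigma.mp hx
    obtain ⟨H, hH, hAeq⟩ := Finset.mem_image.mp hA
    obtain ⟨hHs, hF⟩ := Finset.mem_filter.mp hH
    have hsub : x.2 ⊆ space X r := hAeq ▸ D.pieces_subset_space hm hHs
    refine ⟨hsub, hAeq ▸ D.disjoint_pieces m x.1 H,
      Finset.union_subset (Finset.mem_powerset.mp hW) hsub, ?_⟩
    exact Finset.mem_filter.mpr ⟨Finset.mem_powerset.mpr hsub, x.1, H, hF, hAeq.symm, rfl⟩
  rw [← Finset.sum_image (s := U.sigma PS)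
    (g := fun x => (⟨x.1 ∪ x.2, x.2⟩ : Σ _ : Finset (X × ℕ), Finset (X × ℕ)))
    (f := fun y => mu q r y.1 * ∏ c ∈ y.2, xw c.2)]
  · refine le_trans (Finset.sum_le_sum_of_subset_of_nonneg (t := U.sigma (D.valid r m)) ?_
      (fun y _ _ => mul_nonneg (mu_nonneg hq r _) (Finset.prod_nonneg fun c _ => xw_nonneg _))) ?_
    · intro y hy
      obtain ⟨x, hx, rfl⟩ := Finset.mem_image.mp hy
      obtain ⟨-, -, h3, h4⟩ := hkey x hx
      exact Finset.mem_sigma.mpr ⟨Finset.mem_powerset.mpr h3, h4⟩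
    · rw [Finset.sum_sigma]
      refine (Finset.sum_le_sum (g := fun Z => mu q r Z * B) fun Z _ => ?_).trans (le_of_eq ?_)
      · simp only [← Finset.mul_sum]
        exact mul_le_mul_of_nonneg_left (hB Z) (mu_nonneg hq r Z)
      · rw [← Finset.sum_mul, hU, sum_mu, one_mul]
  · intro x hx y hy hxy
    rw [Finset.mem_coe] at hx hy
    obtain ⟨-, hdx, -, -⟩ := hkey x hx
    obtain ⟨-, hdy, -, -⟩ := hkey y hy
    simp only [Sigma.mk.injEq, heq_eq_eq] at hxy
    obtain ⟨hu, ha⟩ := hxy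
    obtain ⟨W, A⟩ := x
    obtain ⟨W', A'⟩ := y
    simp only at ha hu hdx hdy
    subst ha
    have hW : W = W' := by
      rw [← Finset.union_sdiff_cancel_right hdx, hu, Finset.union_sdiff_cancel_right hdy]
    subst hW
    rfl

lemma expected_cost_le {q : ℝ} (hq : 0 ≤ q) :
    ∑ W ∈ (space X (2 * D.top + 1)).powerset,
      mu q (2 * D.top + 1) W * ∑ T ∈ D.cover W, q ^ T.card ≤
      80 / LL + 172800 / (eps * LL) := by
  set r := 2 * D.top + 1
  refine le_trans ?_ (sum_stBound_le r (Fintype.card X) D.stages)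
  refine le_trans (Finset.sum_le_sum (g := fun W => ∑ m ∈ D.stages,
    mu q r W * ∑ T ∈ D.coverAt m W, q ^ T.card) fun W _ => ?_) ?_
  · rw [← Finset.mul_sum]
    refine mul_le_mul_of_nonneg_left ?_ (mu_nonneg hq r W)
    have he : D.cover W = (D.stages.sigma fun m => D.coverAt m W).image (fun x => x.2) := by
      ext T
      simp [cover]
    rw [he, Finset.sum_sigma' D.stages (fun m => D.coverAt m W) (fun _ T => q ^ T.card)]
    exact Finset.sum_image_le_of_nonneg fun u _ => pow_nonneg hq _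
  · rw [Finset.sum_comm]
    exact Finset.sum_le_sum fun m hm => D.stage_cost_le hq hm fun Z => D.valid_sum_le Z

end LevelSys

end Vale.Agent.P034
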