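import Vale.Agent.P034.Phi

/-!
The random set of coordinates in a fixed number of rounds with geometrically growing densities.
-/

namespace Vale.Agent.P034

open Finset
open scoped Classical

variable {X : Type}

/-- The density of round `i`. -/
noncomputable def dens (q : ℝ) (i : ℕ) : ℝ := min 1 (LL * q * 4 ^ i)

/-- The cost of a piece in round `i` after the shift. -/
noncomputable def xw (i : ℕ) : ℝ := (1 / 4 : ℝ) ^ i / LL

lemma dens_le_one (q : ℝ) (i : ℕ) : dens q i ≤ 1 := min_le_left _ _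

lemma dens_nonneg {q : ℝ} (hq : 0 ≤ q) (i : ℕ) : 0 ≤ dens q i :=
  le_min zero_le_one (mul_nonneg (mul_nonneg LL_pos.le hq) (by positivity))

lemma xw_nonneg (i : ℕ) : 0 ≤ xw i := div_nonneg (by positivity) LL_pos.le

lemma one_sub_dens_mul_le {q : ℝ} (hq : 0 ≤ q) (i : ℕ) :
    (1 - dens q i) * q ≤ dens q i * xw i := by
  rcases le_total (LL * q * 4 ^ i) 1 with h | h
  · have he : dens q i = LL * q * 4 ^ i := min_eq_right h
    have hx : dens q i * xw i = q := by
      rw [he]; unfold xw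
      rw [div_pow, one_pow]
      have := LL_pos
      field_simp
    rw [hx]
    have := dens_nonneg hq i
    calc (1 - dens q i) * q ≤ 1 * q := mul_le_mul_of_nonneg_right (by linarith) hq
      _ = q := one_mul q
  · have he : dens q i = 1 := min_eq_left h
    rw [he, sub_self, zero_mul, one_mul]
    exact xw_nonneg i

/-- All coordinates of `r` rounds. -/
def space (X : Type) [Fintype X] (r : ℕ) : Finset (X × ℕ) :=
  (Finset.univ : Finset X) ×ˢ Finset.range r

variable [Fintype X]

lemma mem_space {r : ℕ} {c : X × ℕ} : c ∈ space X r ↔ c.2 < r := by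
  simp [space]

/-- The probability of the outcome `W`. -/
noncomputable def mu (q : ℝ) (r : ℕ) (W : Finset (X × ℕ)) : ℝ :=
  (∏ c ∈ W, dens q c.2) * ∏ c ∈ space X r \ W, (1 - dens q c.2)

lemma mu_nonneg {q : ℝ} (hq : 0 ≤ q) (r : ℕ) (W : Finset (X × ℕ)) : 0 ≤ mu q r W :=
  mul_nonneg (Finset.prod_nonneg fun _ _ => dens_nonneg hq _)
    (Finset.prod_nonneg fun _ _ => sub_nonneg.mpr (dens_le_one _ _))

lemma sum_mu (q : ℝ) (r : ℕ) : ∑ W ∈ (space X r).powerset, mu q r W = 1 := by
  unfold mu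
  rw [← Finset.prod_add]
  simp

lemma sum_mu_superset (q : ℝ) (r : ℕ) {A : Finset (X × ℕ)} (hA : A ⊆ space X r) :
    ∑ W ∈ (space X r).powerset, (if A ⊆ W then mu q r W else 0) = ∏ c ∈ A, dens q c.2 := by
  have h1 : ∀ W ∈ (space X r).powerset, (if A ⊆ W then mu q r W else 0) =
      (∏ c ∈ W, dens q c.2) *
        ∏ c ∈ space X r \ W, (if c ∈ A then 0 else 1 - dens q c.2) := by
    intro W _
    split
    · next h =>
      unfold mu
      congr 1
      refine Finset.prod_congr rfl fun c hc => ?_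
      rw [if_neg fun hc' => (Finset.mem_sdiff.mp hc).2 (h hc')]
    · next h =>
      obtain ⟨c, hc, hcW⟩ := Finset.not_subset.mp h
      rw [Finset.prod_eq_zero (i := c) (Finset.mem_sdiff.mpr ⟨hA hc, hcW⟩) (by rw [if_pos hc]),
        mul_zero]
  rw [Finset.sum_congr rfl h1, ← Finset.prod_add]
  rw [← Finset.prod_subset hA (f := fun c => dens q c.2 + if c ∈ A then 0 else 1 - dens q c.2)]
  · exact Finset.prod_congr rfl fun c hc => by rw [if_pos hc, add_zero]
  · intro c _ hc
    rw [if_neg hc]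
    ring

lemma mu_shift {q : ℝ} (hq : 0 ≤ q) {r : ℕ} {W A : Finset (X × ℕ)} (hA : A ⊆ space X r)
    (hd : Disjoint W A) :
    mu q r W * q ^ A.card ≤ mu q r (W ∪ A) * ∏ c ∈ A, xw c.2 := by
  unfold mu
  have hsplit : space X r \ W = (space X r \ (W ∪ A)) ∪ A := by
    ext c
    simp only [Finset.mem_sdiff, Finset.mem_union, not_or]
    constructor
    · rintro ⟨h1, h2⟩
      by_cases hc : c ∈ A
      · exact Or.inr hc
      · exact Or.inl ⟨h1, h2, hc⟩
    · rintro (⟨h1, h2, -⟩ | hc)
      · exact ⟨h1, h2⟩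
      · exact ⟨hA hc, fun hW => Finset.disjoint_left.mp hd hW hc⟩
  have hd' : Disjoint (space X r \ (W ∪ A)) A := by
    rw [Finset.disjoint_left]
    intro c hc hcA
    exact (Finset.mem_sdiff.mp hc).2 (Finset.mem_union_right _ hcA)
  rw [hsplit, Finset.prod_union hd', Finset.prod_union hd, ← Finset.prod_const]
  calc (∏ c ∈ W, dens q c.2) * ((∏ c ∈ space X r \ (W ∪ A), (1 - dens q c.2)) *
        ∏ c ∈ A, (1 - dens q c.2)) * ∏ _c ∈ A, q
      = ((∏ c ∈ W, dens q c.2) * ∏ c ∈ space X r \ (W ∪ A), (1 - dens q c.2)) *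
        ∏ c ∈ A, (1 - dens q c.2) * q := by
        rw [Finset.prod_mul_distrib]; ring
    _ ≤ ((∏ c ∈ W, dens q c.2) * ∏ c ∈ space X r \ (W ∪ A), (1 - dens q c.2)) *
        ∏ c ∈ A, dens q c.2 * xw c.2 := by
        refine mul_le_mul_of_nonneg_left ?_ (mul_nonneg
          (Finset.prod_nonneg fun _ _ => dens_nonneg hq _)
          (Finset.prod_nonneg fun _ _ => sub_nonneg.mpr (dens_le_one _ _)))
        exact Finset.prod_le_prod
          (fun c _ => mul_nonneg (sub_nonneg.mpr (dens_le_one _ _)) hq)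
          (fun c _ => one_sub_dens_mul_le hq _)
    _ = _ := by rw [Finset.prod_mul_distrib]; ring

end Vale.Agent.P034
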