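import Vale.Agent.P034.Ident
import Vale.Agent.P034.Measure

/-!
For a fixed union, the possible piece sets of fragments have small total weight.
-/

namespace Vale.Agent.P034

open Finset
open scoped Classical

variable {X : Type}

/-- The profile of a coordinate set: its number of elements in each round. -/
noncomputable def prof (r : ℕ) (A : Finset (X × ℕ)) : Fin r → ℕ :=
  fun i => (A.filter (fun c => c.2 = (i : ℕ))).card

/-- The weight of round `i` at a negative stage `m`. -/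
noncomputable def aN (m : ℤ) (i : ℕ) : ℝ := 5 * (8 : ℝ) ^ m * (1 / 2 : ℝ) ^ i / LL

/-- The weight of round `i` at a nonnegative stage. -/
noncomputable def zz (i : ℕ) : ℝ := 12 * (2 / 3 : ℝ) ^ i / (eps * LL)

/-- The bound for the profile `t` at stage `m`. -/
noncomputable def stBound {r : ℕ} (m : ℤ) (t : Fin r → ℕ) : ℝ :=
  if m < 0 then ∏ i : Fin r, aN m i ^ t i
  else if eps * (2 : ℝ) ^ m < ∑ i : Fin r, (t i : ℝ) then ∏ i : Fin r, zz i ^ t i else 0

lemma aN_nonneg (m : ℤ) (i : ℕ) : 0 ≤ aN m i := div_nonneg (by positivity) LL_pos.le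

lemma zz_nonneg (i : ℕ) : 0 ≤ zz i :=
  div_nonneg (by positivity) (mul_nonneg eps_pos.le LL_pos.le)

lemma stBound_nonneg {r : ℕ} (m : ℤ) (t : Fin r → ℕ) : 0 ≤ stBound m t := by
  unfold stBound
  split
  · exact Finset.prod_nonneg fun i _ => pow_nonneg (aN_nonneg _ _) _
  · split
    · exact Finset.prod_nonneg fun i _ => pow_nonneg (zz_nonneg _) _
    · exact le_rfl

lemma sum_eq_prof {r : ℕ} {A : Finset (X × ℕ)} (hA : ∀ c ∈ A, c.2 < r) (f : ℕ → ℝ) :
    ∑ c ∈ A, f c.2 = ∑ i : Fin r, (prof r A i : ℝ) * f i := by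
  unfold prof
  rw [Fin.sum_univ_eq_sum_range (fun i => ((A.filter (fun c => c.2 = i)).card : ℝ) * f i) r,
    ← Finset.sum_fiberwise_of_maps_to (t := Finset.range r) (g := fun c : X × ℕ => c.2)
      (fun c hc => Finset.mem_range.mpr (hA c hc))]
  refine Finset.sum_congr rfl fun i _ => ?_
  rw [Finset.sum_congr rfl (fun c hc => by rw [(Finset.mem_filter.mp hc).2])
    (g := fun _ => f i), Finset.sum_const, nsmul_eq_mul]

lemma card_eq_prof {r : ℕ} {A : Finset (X × ℕ)} (hA : ∀ c ∈ A, c.2 < r) :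
    (A.card : ℝ) = ∑ i : Fin r, (prof r A i : ℝ) := by
  have := sum_eq_prof hA (fun _ => 1)
  simpa using this

lemma prod_eq_prof {r : ℕ} {A : Finset (X × ℕ)} (hA : ∀ c ∈ A, c.2 < r) (f : ℕ → ℝ) :
    ∏ c ∈ A, f c.2 = ∏ i : Fin r, f i ^ prof r A i := by
  unfold prof
  rw [Fin.prod_univ_eq_prod_range (fun i => f i ^ (A.filter (fun c => c.2 = i)).card) r,
    ← Finset.prod_fiberwise_of_maps_to (t := Finset.range r) (g := fun c : X × ℕ => c.2)
      (fun c hc => Finset.mem_range.mpr (hA c hc))]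
  refine Finset.prod_congr rfl fun i _ => ?_
  rw [Finset.prod_congr rfl (fun c hc => by rw [(Finset.mem_filter.mp hc).2])
    (g := fun _ => f i), Finset.prod_const]

lemma quarter_sum_le (r : ℕ) : ∑ i : Fin r, (1 / 4 : ℝ) * (3 / 4) ^ (i : ℕ) ≤ 1 := by
  rw [Fin.sum_univ_eq_sum_range (fun i => (1 / 4 : ℝ) * (3 / 4) ^ i) r, ← Finset.mul_sum]
  have h := geom_sum_mul (3 / 4 : ℝ) r
  have : (0 : ℝ) ≤ (3 / 4 : ℝ) ^ r := by positivity
  linarith

lemma term_neg {m : ℤ} {C : ℝ} (hC : C ≤ 5 * (8 : ℝ) ^ m) (n : ℕ) (i k : ℕ)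
    (hn : (n : ℝ) ≤ 2 ^ i * C) : (n.choose k : ℝ) * xw i ^ k ≤ aN m i ^ k := by
  have h1 : (n.choose k : ℝ) ≤ (n : ℝ) ^ k := by exact_mod_cast Nat.choose_le_pow n k
  refine (mul_le_mul_of_nonneg_right h1 (pow_nonneg (xw_nonneg i) _)).trans ?_
  rw [← mul_pow]
  refine pow_le_pow_left₀ (mul_nonneg (Nat.cast_nonneg _) (xw_nonneg i)) ?_ k
  have h2 : (n : ℝ) ≤ 2 ^ i * (5 * (8 : ℝ) ^ m) :=
    hn.trans (mul_le_mul_of_nonneg_left hC (by positivity))
  refine (mul_le_mul_of_nonneg_right h2 (xw_nonneg i)).trans (le_of_eq ?_)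
  unfold xw aN
  rw [show (1 / 4 : ℝ) = (1 / 2) * (1 / 2) by norm_num, mul_pow]
  have : (2 : ℝ) ^ i * (1 / 2) ^ i = 1 := by rw [← mul_pow]; norm_num
  linear_combination (5 * (8 : ℝ) ^ m * (1 / 2) ^ i / LL) * this

lemma term_pos {C : ℝ} {N : ℝ} (hN : 0 ≤ N) (hC : eps * C ≤ N) (n : ℕ) (i k : ℕ)
    (hn : (n : ℝ) ≤ 2 ^ i * C) :
    (n.choose k : ℝ) * xw i ^ k ≤
      Real.exp (N * ((1 / 4) * (3 / 4) ^ i)) * (zz i / 3) ^ k := by
  have h1 := Nat.choose_le_pow_div (α := ℝ) k n
  refine (mul_le_mul_of_nonneg_right h1 (pow_nonneg (xw_nonneg i) _)).trans ?_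
  rw [div_mul_eq_mul_div, ← mul_pow]
  have he := eps_pos
  have hL := LL_pos
  have h2 : (n : ℝ) * xw i ≤ (N * ((1 / 4) * (3 / 4) ^ i)) * (zz i / 3) := by
    have h3 : (n : ℝ) ≤ 2 ^ i * (N / eps) :=
      hn.trans (mul_le_mul_of_nonneg_left ((le_div_iff₀ he).mpr (by linarith)) (by positivity))
    refine (mul_le_mul_of_nonneg_right h3 (xw_nonneg i)).trans (le_of_eq ?_)
    have e : (2 : ℝ) ^ i * (1 / 4) ^ i = (3 / 4) ^ i * (2 / 3) ^ i := by
      rw [← mul_pow, ← mul_pow]; norm_num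
    unfold xw zz
    linear_combination (N / (eps * LL)) * e
  calc ((n : ℝ) * xw i) ^ k / (k.factorial : ℝ)
      ≤ ((N * ((1 / 4) * (3 / 4) ^ i)) * (zz i / 3)) ^ k / (k.factorial : ℝ) :=
        div_le_div_of_nonneg_right
          (pow_le_pow_left₀ (mul_nonneg (Nat.cast_nonneg _) (xw_nonneg i)) h2 k)
          (Nat.cast_nonneg _)
    _ = (N * ((1 / 4) * (3 / 4) ^ i)) ^ k / (k.factorial : ℝ) * (zz i / 3) ^ k := by
        rw [mul_pow]; ring
    _ ≤ _ := mul_le_mul_of_nonneg_right (Real.pow_div_factorial_le_exp _ (by positivity) k)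
        (pow_nonneg (div_nonneg (zz_nonneg i) (by norm_num)) _)

namespace LevelSys

variable [Fintype X] (D : LevelSys X)

/-- The piece sets that are possible for the union `Z`. -/
noncomputable def valid (r : ℕ) (m : ℤ) (Z : Finset (X × ℕ)) : Finset (Finset (X × ℕ)) :=
  (space X r).powerset.filter
    (fun A => ∃ W H, D.Frag m W H ∧ A = D.pieces m W H ∧ W ∪ A = Z)

lemma fiber_bound {r : ℕ} {m : ℤ} {Z : Finset (X × ℕ)} (t : Fin r → ℕ) :
    ∑ A ∈ (D.valid r m Z).filter (fun A => prof r A = t), ∏ c ∈ A, xw c.2 ≤ stBound m t := by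
  rcases ((D.valid r m Z).filter (fun A => prof r A = t)).eq_empty_or_nonempty with he | ⟨A₀, hA₀⟩
  · rw [he, Finset.sum_empty]; exact stBound_nonneg m t
  obtain ⟨hv₀, ht₀⟩ := Finset.mem_filter.mp hA₀
  obtain ⟨hs₀, W₀, H₀, hF₀, hA₀eq, hZ₀⟩ := Finset.mem_filter.mp hv₀
  rw [Finset.mem_powerset] at hs₀
  have hlt₀ : ∀ c ∈ A₀, c.2 < r := fun c hc => mem_space.mp (hs₀ hc)
  have hC₀ : D.Cand m Z (cnt0 A₀) (wU A₀) H₀ := by
    have := D.cand_self hF₀
    rwa [← hA₀eq, hZ₀] at this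
  have hall : ∀ A ∈ (D.valid r m Z).filter (fun A => prof r A = t),
      (∀ c ∈ A, c.2 < r) ∧ eps * D.cC m H₀ < (A.card : ℝ) ∧
        ∀ c ∈ A, c.1 ∈ D.slice m Z H₀ c.2 := by
    intro A hA
    obtain ⟨hv, ht⟩ := Finset.mem_filter.mp hA
    obtain ⟨hs, W, H, hF, hAeq, hZ⟩ := Finset.mem_filter.mp hv
    rw [Finset.mem_powerset] at hs
    have hlt : ∀ c ∈ A, c.2 < r := fun c hc => mem_space.mp (hs hc)
    have h0 : cnt0 A = cnt0 A₀ := by
      unfold cnt0
      rw [sum_eq_prof hlt (fun j => if j = 0 then 1 else 0),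
        sum_eq_prof hlt₀ (fun j => if j = 0 then 1 else 0), ht, ht₀]
    have h1 : wU A = wU A₀ := by
      unfold wU
      rw [sum_eq_prof hlt (fun j => (1 / 2 : ℝ) ^ j),
        sum_eq_prof hlt₀ (fun j => (1 / 2 : ℝ) ^ j), ht, ht₀]
    have hC : D.Cand m (W ∪ D.pieces m W H) (cnt0 (D.pieces m W H))
        (wU (D.pieces m W H)) H₀ := by
      rw [← hAeq, hZ, h0, h1]; exact hC₀
    have := D.ident hF hC
    rw [← hAeq, hZ] at this
    exact ⟨hlt, this⟩
  have hval : ∀ A ∈ (D.valid r m Z).filter (fun A => prof r A = t),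
      ∏ c ∈ A, xw c.2 = ∏ i : Fin r, xw i ^ t i := by
    intro A hA
    rw [prod_eq_prof (hall A hA).1 xw, (Finset.mem_filter.mp hA).2]
  rw [Finset.sum_congr rfl hval, Finset.sum_const, nsmul_eq_mul]
  set n : Fin r → ℕ := fun i => (D.slice m Z H₀ i).card with hn
  have hcount : ((D.valid r m Z).filter (fun A => prof r A = t)).card ≤
      ∏ i : Fin r, (n i).choose (t i) := by
    have e : ∏ i : Fin r, (n i).choose (t i) =
        (Fintype.piFinset fun i : Fin r => (D.slice m Z H₀ i).powersetCard (t i)).card := by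
      rw [Fintype.card_piFinset]
      simp only [Finset.card_powersetCard]
      rfl
    rw [e]
    refine Finset.card_le_card_of_injOn
      (fun A (i : Fin r) => (A.filter (fun c => c.2 = (i : ℕ))).image Prod.fst) ?_ ?_
    · intro A hA
      rw [Finset.mem_coe] at hA
      rw [Finset.mem_coe, Fintype.mem_piFinset]
      intro i
      rw [Finset.mem_powersetCard]
      refine ⟨?_, ?_⟩
      · intro e he
        obtain ⟨c, hc, rfl⟩ := Finset.mem_image.mp he
        obtain ⟨hcA, hci⟩ := Finset.mem_filter.mp hc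
        have := (hall A hA).2.2 c hcA
        rwa [hci] at this
      · rw [Finset.card_image_of_injOn]
        · exact congrFun (Finset.mem_filter.mp hA).2 i
        · intro a ha b hb hab
          rw [Finset.mem_coe, Finset.mem_filter] at ha hb
          exact Prod.ext hab (ha.2.trans hb.2.symm)
    · intro A hA B hB hAB
      rw [Finset.mem_coe] at hA hB
      ext c
      constructor
      · intro hc
        have hlt := (hall A hA).1 c hc
        have h := congrFun hAB ⟨c.2, hlt⟩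
        simp only at h
        have hc1 : c.1 ∈ (A.filter (fun d => d.2 = c.2)).image Prod.fst :=
          Finset.mem_image_of_mem _ (Finset.mem_filter.mpr ⟨hc, rfl⟩)
        rw [h] at hc1
        obtain ⟨d, hd, hd1⟩ := Finset.mem_image.mp hc1
        obtain ⟨hd2, hd3⟩ := Finset.mem_filter.mp hd
        rwa [Prod.ext hd1 hd3] at hd2
      · intro hc
        have hlt := (hall B hB).1 c hc
        have h := congrFun hAB ⟨c.2, hlt⟩
        simp only at h
        have hc1 : c.1 ∈ (B.filter (fun d => d.2 = c.2)).image Prod.fst :=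
          Finset.mem_image_of_mem _ (Finset.mem_filter.mpr ⟨hc, rfl⟩)
        rw [← h] at hc1
        obtain ⟨d, hd, hd1⟩ := Finset.mem_image.mp hc1
        obtain ⟨hd2, hd3⟩ := Finset.mem_filter.mp hd
        rwa [Prod.ext hd1 hd3] at hd2
  have hslice : ∀ i : Fin r, (n i : ℝ) ≤ 2 ^ (i : ℕ) * D.cC m H₀ := fun i =>
    D.slice_card_le hC₀ (cnt0_nonneg _) (wU_nonneg _) i
  have hx : 0 ≤ ∏ i : Fin r, xw i ^ t i :=
    Finset.prod_nonneg fun i _ => pow_nonneg (xw_nonneg _) _
  refine (mul_le_mul_of_nonneg_right (Nat.cast_le.mpr hcount) hx).trans ?_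
  rw [Nat.cast_prod, ← Finset.prod_mul_distrib]
  unfold stBound
  by_cases hm : m < 0
  · rw [if_pos hm]
    exact Finset.prod_le_prod
      (fun i _ => mul_nonneg (Nat.cast_nonneg _) (pow_nonneg (xw_nonneg _) _))
      (fun i _ => term_neg (D.cC_le_of_neg hm hF₀.1) (n i) i (t i) (hslice i))
  · rw [if_neg hm]
    have hN : eps * D.cC m H₀ < ∑ i : Fin r, (t i : ℝ) := by
      have := (hall A₀ hA₀).2.1
      rwa [card_eq_prof hlt₀, ht₀] at this
    rw [if_pos (lt_of_le_of_lt
      (mul_le_mul_of_nonneg_left (D.two_zpow_le_cC (not_lt.mp hm) H₀) eps_pos.le) hN)]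
    set N : ℝ := ∑ i : Fin r, (t i : ℝ) with hNdef
    have hN0 : 0 ≤ N := Finset.sum_nonneg fun i _ => Nat.cast_nonneg _
    calc ∏ i : Fin r, ((n i).choose (t i) : ℝ) * xw i ^ t i
        ≤ ∏ i : Fin r, Real.exp (N * ((1 / 4) * (3 / 4) ^ (i : ℕ))) * (zz i / 3) ^ t i :=
          Finset.prod_le_prod
            (fun i _ => mul_nonneg (Nat.cast_nonneg _) (pow_nonneg (xw_nonneg _) _))
            (fun i _ => term_pos hN0 hN.le (n i) i (t i) (hslice i))
      _ = Real.exp (∑ i : Fin r, N * ((1 / 4) * (3 / 4) ^ (i : ℕ))) *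
            ∏ i : Fin r, (zz i / 3) ^ t i := by
          rw [Real.exp_sum, Finset.prod_mul_distrib]
      _ ≤ (∏ i : Fin r, (3 : ℝ) ^ t i) * ∏ i : Fin r, (zz i / 3) ^ t i := by
          refine mul_le_mul_of_nonneg_right ?_ (Finset.prod_nonneg fun i _ =>
            pow_nonneg (div_nonneg (zz_nonneg _) (by norm_num)) _)
          rw [← Finset.mul_sum]
          refine (Real.exp_le_exp.mpr (mul_le_of_le_one_right hN0 (quarter_sum_le r))).trans ?_
          rw [hNdef, ← Nat.cast_sum, ← mul_one ((∑ i : Fin r, t i : ℕ) : ℝ), Real.exp_nat_mul,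
            Finset.prod_pow_eq_pow_sum]
          exact pow_le_pow_left₀ (Real.exp_pos 1).le Real.exp_one_lt_three.le _
      _ = ∏ i : Fin r, zz i ^ t i := by
          rw [← Finset.prod_mul_distrib]
          refine Finset.prod_congr rfl fun i _ => ?_
          rw [← mul_pow, mul_div_cancel₀ _ (by norm_num : (3 : ℝ) ≠ 0)]

lemma valid_sum_le {r : ℕ} {m : ℤ} (Z : Finset (X × ℕ)) :
    ∑ A ∈ D.valid r m Z, ∏ c ∈ A, xw c.2 ≤
      ∑ t ∈ (Fintype.piFinset fun _ : Fin r => Finset.range (Fintype.card X + 1)).erase 0,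
        stBound m t := by
  rw [← Finset.sum_fiberwise_of_maps_to (g := prof r)
    (t := (Fintype.piFinset fun _ : Fin r => Finset.range (Fintype.card X + 1)).erase 0)]
  · exact Finset.sum_le_sum fun t _ => D.fiber_bound t
  · intro A hA
    obtain ⟨hs, W, H, hF, hAeq, -⟩ := Finset.mem_filter.mp hA
    rw [Finset.mem_powerset] at hs
    refine Finset.mem_erase.mpr ⟨?_, ?_⟩
    · intro h0
      have h1 := card_eq_prof (fun c hc => mem_space.mp (hs hc))
      rw [h0] at h1
      simp at h1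
      exact D.pieces_ne_empty hF (hAeq ▸ h1)
    · rw [Fintype.mem_piFinset]
      intro i
      rw [Finset.mem_range]
      refine Nat.lt_succ_of_le ?_
      unfold prof
      refine le_trans (le_of_eq (Finset.card_image_of_injOn (f := Prod.fst) ?_).symm)
        (Finset.card_le_univ _)
      intro a ha b hb hab
      rw [Finset.mem_coe, Finset.mem_filter] at ha hb
      exact Prod.ext hab (ha.2.trans hb.2.symm)

end LevelSys

end Vale.Agent.P034
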