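import Mathlib

/-!
Expectation thresholds (integral and fractional) of a family of subsets of a finite set.
-/

namespace Vale.Agent.P034

open Finset

/-- The family `G` covers `F`: every member of `F` contains a member of `G`. -/
def Covers {X : Type} (G F : Finset (Finset X)) : Prop :=
  ∀ H ∈ F, ∃ S ∈ G, S ⊆ H

/-- The integral expectation threshold. -/
noncomputable def qInt {X : Type} (F : Finset (Finset X)) : ℝ :=
  sSup {p : ℝ | p ∈ Set.Icc (0 : ℝ) 1 ∧
    ∃ G : Finset (Finset X), Covers G F ∧ ∑ S ∈ G, p ^ S.card ≤ 1 / 2}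

/-- The fractional expectation threshold. -/
noncomputable def qFrac {X : Type} [Fintype X] (F : Finset (Finset X)) : ℝ :=
  sSup {p : ℝ | p ∈ Set.Icc (0 : ℝ) 1 ∧
    ∃ g : Finset X → ℝ, (∀ S, g S ∈ Set.Icc (0 : ℝ) 1) ∧
      (∀ H ∈ F, 1 ≤ ∑ S ∈ H.powerset, g S) ∧ ∑ S, g S * p ^ S.card ≤ 1 / 2}

end Vale.Agent.P034
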