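import Vale.Agent.P034.Setup

/-!
The descent through the stages: either a fragment lies inside the given set,
or some set of the system is hit quickly in all elements of its support.
-/

namespace Vale.Agent.P034

open Finset
open scoped Classical

namespace LevelSys

variable {X : Type} (D : LevelSys X)

/-- The invariant of the descent at stage `m`. -/
def Inv (m : ℤ) (W : Finset (X × ℕ)) (H : Finset X) : Prop :=
  ∃ H' ∈ D.Hs, D.res m W H' ⊆ H ∧
    ∀ m' ∈ Finset.Icc m (D.top : ℤ), D.wR m' W H' ≤ bb (m' - m) * eps * D.cC m' H'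

lemma descent_step {m : ℤ} (hm : m ∈ D.stages) {W : Finset (X × ℕ)} {H : Finset X}
    (hno : ∀ T ∈ D.cover W, ¬ T ⊆ H)
    (hex : ∃ H' ∈ D.Hs, D.res m W H' ⊆ H ∧ D.Hist m W H') : D.Inv m W H := by
  set K := D.Hs.filter (fun H' => D.res m W H' ⊆ H ∧ D.Hist m W H') with hK
  have hKne : K.Nonempty := by
    obtain ⟨H', h1, h2⟩ := hex
    exact ⟨H', Finset.mem_filter.mpr ⟨h1, h2⟩⟩
  by_cases hgood : ∃ H' ∈ K, D.wR m W H' ≤ eps * D.cC m H'
  · obtain ⟨H', h1, h2⟩ := hgood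
    obtain ⟨hs, hr, hh⟩ := Finset.mem_filter.mp h1
    refine ⟨H', hs, hr, fun m' hm' => ?_⟩
    obtain ⟨ha, hb⟩ := Finset.mem_Icc.mp hm'
    rcases eq_or_lt_of_le ha with rfl | hlt
    · rw [sub_self, bb_zero, one_mul]
      exact h2
    · have h3 := hh m' (Finset.mem_Ioc.mpr ⟨hlt, hb⟩)
      linarith [D.wR_nonneg m W H']
  · push Not at hgood
    obtain ⟨H₁, h1, h2⟩ := K.exists_min_image (fun H' => D.wR m W H') hKne
    obtain ⟨hs, hr, hh⟩ := Finset.mem_filter.mp h1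
    have hF : D.Frag m W H₁ := by
      refine ⟨hs, hh, fun H' hH' hsub hh' => ?_⟩
      have hmem : H' ∈ K := Finset.mem_filter.mpr ⟨hH', hsub.trans hr, hh'⟩
      exact ⟨h2 H' hmem, hgood H' hmem⟩
    have hT : D.res m W H₁ ∈ D.cover W :=
      Finset.mem_biUnion.mpr ⟨m, hm,
        Finset.mem_image.mpr ⟨H₁, Finset.mem_filter.mpr ⟨hs, hF⟩, rfl⟩⟩
    exact absurd hr (hno _ hT)

lemma descent {W : Finset (X × ℕ)} {H : Finset X} (hH : H ∈ D.Hs)
    (hno : ∀ T ∈ D.cover W, ¬ T ⊆ H) :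
    ∀ j : ℕ, j ≤ 2 * D.top → D.Inv ((D.top : ℤ) - j) W H := by
  intro j
  induction j with
  | zero =>
    intro _
    have hm : (D.top : ℤ) ∈ D.stages := Finset.mem_Icc.mpr ⟨by omega, le_refl _⟩
    simp only [Nat.cast_zero, sub_zero]
    refine D.descent_step hm hno ⟨H, hH, ?_, ?_⟩
    · intro e he
      exact D.supp_sub H hH ((D.mem_res).mp he).1
    · intro m' hm'
      simp at hm'
  | succ j ih =>
    intro hj
    obtain ⟨H', hs, hr, hb⟩ := ih (by omega)
    set m : ℤ := (D.top : ℤ) - ((j + 1 : ℕ) : ℤ) with hmdef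
    have hmj : (D.top : ℤ) - (j : ℤ) = m + 1 := by rw [hmdef]; push_cast; ring
    rw [hmj] at hr hb
    have hm : m ∈ D.stages := Finset.mem_Icc.mpr ⟨by omega, by omega⟩
    refine D.descent_step hm hno ⟨H', hs, (D.res_mono (by omega) W H').trans hr, ?_⟩
    intro m' hm'
    obtain ⟨ha, hb'⟩ := Finset.mem_Ioc.mp hm'
    have h1 := hb m' (Finset.mem_Icc.mpr ⟨by omega, hb'⟩)
    have h2 := hb (m + 1) (Finset.mem_Icc.mpr ⟨le_refl _, by omega⟩)
    rw [sub_self, bb_zero, one_mul] at h2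
    have h3 := D.wR_mono (show m ≤ m + 1 by omega) W H'
    obtain ⟨n, hn⟩ : ∃ n : ℕ, m' = m + 1 + n := ⟨(m' - m - 1).toNat, by omega⟩
    have h4 := D.pow_two_cC_le (m + 1) n H'
    rw [← hn] at h4
    have h5 : bb (m' - m) = bb (m' - (m + 1)) + 4 * (2 : ℝ) ^ (-(m' - m)) := by
      rw [← bb_step (m' - m), show m' - m - 1 = m' - (m + 1) by ring]
    have h6 : (2 : ℝ) ^ (-(m' - m)) = (1 / 2) * ((2 : ℝ) ^ n)⁻¹ := by
      rw [show -(m' - m) = -(n : ℤ) + (-1) by omega, zpow_add₀ (by norm_num), zpow_neg,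
        zpow_natCast]
      norm_num
      ring
    have h7 : D.cC (m + 1) H' ≤ ((2 : ℝ) ^ n)⁻¹ * D.cC m' H' := by
      rw [inv_mul_eq_div, le_div_iff₀ (by positivity)]
      linarith
    have h8 : eps * D.cC (m + 1) H' ≤ eps * (((2 : ℝ) ^ n)⁻¹ * D.cC m' H') :=
      mul_le_mul_of_nonneg_left h7 eps_pos.le
    rw [h5, h6]
    linarith

lemma exists_hits {W : Finset (X × ℕ)} {H : Finset X} (hH : H ∈ D.Hs)
    (hno : ∀ T ∈ D.cover W, ¬ T ⊆ H) :
    ∃ H₀ ∈ D.Hs, ∃ h : X → ℕ, (∀ e ∈ D.supp H₀, (e, h e) ∈ W) ∧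
      ∑ e ∈ D.supp H₀, (1 / 4 : ℝ) ^ (D.lev H₀ e) * h e ≤ 1 / 8 := by
  have hinv := D.descent hH hno (2 * D.top) le_rfl
  set m₀ : ℤ := -(D.top : ℤ) with hm₀
  rw [show (D.top : ℤ) - ((2 * D.top : ℕ) : ℤ) = m₀ by rw [hm₀]; push_cast; ring] at hinv
  obtain ⟨H₀, hs, -, hb⟩ := hinv
  refine ⟨H₀, hs, fun e => sInf {i | (e, i) ∈ W}, ?_⟩
  have hhit : ∀ e ∈ D.supp H₀, ∃ i ≤ dep m₀ (D.lev H₀ e), (e, i) ∈ W := by
    intro e he
    by_contra hc
    push Not at hc
    have hres : e ∈ D.res m₀ W H₀ := (D.mem_res).mpr ⟨he, hc⟩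
    have h1 : (1 / 2 : ℝ) ^ (dep m₀ (D.lev H₀ e)) ≤ D.wR m₀ W H₀ :=
      Finset.single_le_sum (f := fun x => (1 / 2 : ℝ) ^ (dep m₀ (D.lev H₀ x)))
        (fun _ _ => by positivity) hres
    have h2 : (1 / 4 : ℝ) ^ D.top ≤ (1 / 2 : ℝ) ^ (dep m₀ (D.lev H₀ e)) := by
      rw [show (1 / 4 : ℝ) = (1 / 2) ^ 2 by norm_num, ← pow_mul]
      refine pow_le_pow_of_le_one (by norm_num) (by norm_num) ?_
      have := D.lev_le H₀ hs e he
      unfold dep
      omega
    have h3 := hb m₀ (Finset.mem_Icc.mpr ⟨le_refl _, by omega⟩)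
    rw [sub_self, bb_zero, one_mul] at h3
    have h4 : D.cC m₀ H₀ ≤ 5 * (1 / 4 : ℝ) ^ D.top := by
      by_cases htop : D.top = 0
      · have hm0 : m₀ = 0 := by omega
        rw [hm0, htop, pow_zero, mul_one]
        unfold cC
        have hle : ∀ x ∈ D.supp H₀, phi ((0 : ℤ) - D.lev H₀ x) = (1 / 4 : ℝ) ^ (D.lev H₀ x) := by
          intro x hx
          have := D.lev_le H₀ hs x hx
          rw [show D.lev H₀ x = 0 by omega]
          simp [phi]
        rw [Finset.sum_congr rfl hle]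
        have := D.kraft H₀ hs
        simp only [phi, le_refl, if_true, zpow_zero]
        linarith
      · refine (D.cC_le_of_neg (by omega) hs).trans ?_
        refine mul_le_mul_of_nonneg_left ?_ (by norm_num)
        rw [hm₀, zpow_neg, zpow_natCast, ← inv_pow]
        exact pow_le_pow_left₀ (by norm_num) (by norm_num) _
    have h5 : 0 < (1 / 4 : ℝ) ^ D.top := by positivity
    have h6 : eps * D.cC m₀ H₀ ≤ eps * (5 * (1 / 4 : ℝ) ^ D.top) :=
      mul_le_mul_of_nonneg_left h4 eps_pos.le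
    have h7 : eps * (5 * (1 / 4 : ℝ) ^ D.top) < (1 / 4 : ℝ) ^ D.top := by
      unfold eps; linarith
    linarith
  refine ⟨fun e he => ?_, ?_⟩
  · obtain ⟨i, -, hi⟩ := hhit e he
    exact Nat.sInf_mem (s := {i | (e, i) ∈ W}) ⟨i, hi⟩
  · have key : ∀ e ∈ D.supp H₀, (1 / 4 : ℝ) ^ (D.lev H₀ e) * (sInf {i | (e, i) ∈ W} : ℕ) ≤
        ∑ m ∈ D.stages, if e ∈ D.res m W H₀
          then (4 : ℝ) ^ (-m) * (1 / 2 : ℝ) ^ (dep m (D.lev H₀ e)) else 0 := by
      intro e he
      obtain ⟨i, hi1, hi2⟩ := hhit e he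
      set h := sInf {i | (e, i) ∈ W} with hh
      have hle : h ≤ i := Nat.sInf_le (show i ∈ {i | (e, i) ∈ W} from hi2)
      have hlev := D.lev_le H₀ hs e he
      have hun : ∀ a, a < h → (e, a) ∉ W := fun a ha =>
        Nat.notMem_of_lt_sInf (s := {i | (e, i) ∈ W}) ha
      set k := D.lev H₀ e with hk
      have hi1' : i ≤ k + D.top := by
        unfold dep at hi1
        omega
      have hsub : (Finset.range h).image (fun j : ℕ => (k : ℤ) - j) ⊆ D.stages := by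
        intro m hm
        obtain ⟨j, hj, rfl⟩ := Finset.mem_image.mp hm
        rw [Finset.mem_range] at hj
        exact Finset.mem_Icc.mpr ⟨by omega, by omega⟩
      refine le_trans ?_ (Finset.sum_le_sum_of_subset_of_nonneg hsub fun m _ _ => by
        split <;> positivity)
      rw [Finset.sum_image (fun a _ b _ hab => by simpa using hab)]
      refine le_trans (le_of_eq ?_) (Finset.sum_le_sum (s := Finset.range h)
        (f := fun _ => (1 / 4 : ℝ) ^ k) fun j hj => ?_)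
      · simp [mul_comm]
      rw [Finset.mem_range] at hj
      have hd : dep ((k : ℤ) - j) k = j := by unfold dep; omega
      have hmem : e ∈ D.res ((k : ℤ) - j) W H₀ := by
        rw [mem_res]
        refine ⟨he, fun a ha => hun a ?_⟩
        rw [← hk, hd] at ha
        omega
      rw [if_pos hmem, hd, show -((k : ℤ) - j) = (j : ℤ) + -(k : ℤ) by ring,
        zpow_add₀ (by norm_num), zpow_neg, zpow_natCast, zpow_natCast, ← inv_pow,
        show ((4 : ℝ)⁻¹) = 1 / 4 by norm_num, mul_comm ((4 : ℝ) ^ j), mul_assoc, ← mul_pow]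
      exact le_mul_of_one_le_right (by positivity) (one_le_pow₀ (by norm_num))
    refine le_trans (Finset.sum_le_sum key) ?_
    rw [Finset.sum_comm]
    have hmain : ∀ m ∈ D.stages, (∑ e ∈ D.supp H₀, if e ∈ D.res m W H₀
        then (4 : ℝ) ^ (-m) * (1 / 2 : ℝ) ^ (dep m (D.lev H₀ e)) else 0) ≤
          (5 * eps) * ((4 : ℝ) ^ (-m) * D.cC m H₀) := by
      intro m hm
      obtain ⟨ha, hb'⟩ := Finset.mem_Icc.mp hm
      rw [← Finset.sum_filter, Finset.filter_mem_eq_inter,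
        Finset.inter_eq_right.mpr (fun x hx => ((D.mem_res).mp hx).1), ← Finset.mul_sum]
      have h1 : D.wR m W H₀ ≤ 5 * eps * D.cC m H₀ := by
        refine (hb m (Finset.mem_Icc.mpr ⟨by omega, hb'⟩)).trans ?_
        exact mul_le_mul_of_nonneg_right
          (mul_le_mul_of_nonneg_right (bb_le_five _) eps_pos.le) (D.cC_pos m H₀).le
      calc (4 : ℝ) ^ (-m) * ∑ e ∈ D.res m W H₀, (1 / 2 : ℝ) ^ (dep m (D.lev H₀ e))
          ≤ (4 : ℝ) ^ (-m) * (5 * eps * D.cC m H₀) :=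
            mul_le_mul_of_nonneg_left h1 (by positivity)
        _ = 5 * eps * ((4 : ℝ) ^ (-m) * D.cC m H₀) := by ring
    refine le_trans (Finset.sum_le_sum hmain) ?_
    rw [← Finset.mul_sum]
    have h15 := D.sum_quarter_cC_le hs
    have : 5 * eps * ∑ m ∈ D.stages, (4 : ℝ) ^ (-m) * D.cC m H₀ ≤ 5 * eps * 15 :=
      mul_le_mul_of_nonneg_left h15 (by linarith [eps_pos])
    refine this.trans ?_
    unfold eps
    norm_num

end LevelSys

end Vale.Agent.P034
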