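import Vale.Agent.P034.Setup

/-!
A fragment is identified, up to a small choice, by the union with the random set
and by the numbers of its pieces in the various rounds.
-/

namespace Vale.Agent.P034

open Finset
open scoped Classical

variable {X : Type}

/-- The number of pieces in the first round. -/
noncomputable def cnt0 (A : Finset (X × ℕ)) : ℝ := ∑ c ∈ A, if c.2 = 0 then 1 else 0

/-- The weight of the pieces. -/
noncomputable def wU (A : Finset (X × ℕ)) : ℝ := ∑ c ∈ A, (1 / 2 : ℝ) ^ c.2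

lemma cnt0_nonneg (A : Finset (X × ℕ)) : 0 ≤ cnt0 A :=
  Finset.sum_nonneg fun _ _ => by split <;> norm_num

lemma wU_nonneg (A : Finset (X × ℕ)) : 0 ≤ wU A :=
  Finset.sum_nonneg fun _ _ => by positivity

lemma wU_le_card (A : Finset (X × ℕ)) : wU A ≤ A.card := by
  refine le_trans (Finset.sum_le_sum (g := fun _ => (1 : ℝ)) fun c _ => ?_) (le_of_eq (by simp))
  exact pow_le_one₀ (by norm_num) (by norm_num)

namespace LevelSys

variable (D : LevelSys X)

/-- The coordinates of a residual set, each at its own depth. -/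
noncomputable def pieces (m : ℤ) (W : Finset (X × ℕ)) (H : Finset X) : Finset (X × ℕ) :=
  (D.res m W H).image (fun e => (e, dep m (D.lev H e)))

/-- The possible positions of pieces in round `i`. -/
noncomputable def slice (m : ℤ) (Z : Finset (X × ℕ)) (H : Finset X) (i : ℕ) : Finset X :=
  (D.supp H).filter (fun e => dep m (D.lev H e) = i ∧ ∀ l, l < i → (e, l) ∉ Z)

/-- A candidate for the identification. -/
def Cand (m : ℤ) (Z : Finset (X × ℕ)) (a u : ℝ) (H : Finset X) : Prop :=
  H ∈ D.Hs ∧ D.res m Z H = ∅ ∧ ∀ m' ∈ Finset.Ioc m (D.top : ℤ),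
    D.wR m' Z H + a + 2 * u ≤ bb (m' - m) * eps * D.cC m' H

lemma pieces_injOn (m : ℤ) (H : Finset X) (s : Set X) :
    Set.InjOn (fun e => ((e, dep m (D.lev H e)) : X × ℕ)) s :=
  fun _ _ _ _ h => congrArg Prod.fst h

lemma mem_pieces {m : ℤ} {W : Finset (X × ℕ)} {H : Finset X} {c : X × ℕ} :
    c ∈ D.pieces m W H ↔ c.1 ∈ D.res m W H ∧ c.2 = dep m (D.lev H c.1) := by
  constructor
  · intro hc
    obtain ⟨e, he, rfl⟩ := Finset.mem_image.mp hc
    exact ⟨he, rfl⟩
  · rintro ⟨h1, h2⟩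
    exact Finset.mem_image.mpr ⟨c.1, h1, by rw [← h2]⟩

lemma pieces_fst (m : ℤ) (W : Finset (X × ℕ)) (H : Finset X) :
    (D.pieces m W H).image Prod.fst = D.res m W H := by
  unfold pieces
  rw [Finset.image_image]
  exact Finset.image_id'

lemma card_pieces (m : ℤ) (W : Finset (X × ℕ)) (H : Finset X) :
    (D.pieces m W H).card = (D.res m W H).card :=
  Finset.card_image_of_injOn (D.pieces_injOn m H _)

lemma disjoint_pieces (m : ℤ) (W : Finset (X × ℕ)) (H : Finset X) :
    Disjoint W (D.pieces m W H) := by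
  rw [Finset.disjoint_left]
  intro c hcW hc
  obtain ⟨h1, h2⟩ := D.mem_pieces.mp hc
  have h3 := ((D.mem_res).mp h1).2 c.2 h2.le
  exact h3 hcW

lemma wU_pieces (m : ℤ) (W : Finset (X × ℕ)) (H : Finset X) :
    wU (D.pieces m W H) = D.wR m W H := by
  unfold wU pieces
  rw [Finset.sum_image (D.pieces_injOn m H _)]
  rfl

lemma cnt0_pieces (m : ℤ) (W : Finset (X × ℕ)) (H : Finset X) :
    cnt0 (D.pieces m W H) =
      ∑ e ∈ D.res m W H, if dep m (D.lev H e) = 0 then (1 : ℝ) else 0 := by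
  unfold cnt0 pieces
  rw [Finset.sum_image (D.pieces_injOn m H _)]

lemma pieces_ne_empty {m : ℤ} {W : Finset (X × ℕ)} {H : Finset X} (hF : D.Frag m W H) :
    D.pieces m W H ≠ ∅ := by
  intro h
  have h1 := (hF.2.2 H hF.1 subset_rfl hF.2.1).2
  rw [← D.wU_pieces, h] at h1
  have : (0 : ℝ) < eps * D.cC m H := mul_pos eps_pos (D.cC_pos m H)
  simp [wU] at h1
  linarith

lemma cand_self {m : ℤ} {W : Finset (X × ℕ)} {H : Finset X} (hF : D.Frag m W H) :
    D.Cand m (W ∪ D.pieces m W H) (cnt0 (D.pieces m W H)) (wU (D.pieces m W H)) H := by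
  obtain ⟨hH, hh, -⟩ := hF
  set Z := W ∪ D.pieces m W H with hZ
  have hWZ : W ⊆ Z := Finset.subset_union_left
  refine ⟨hH, ?_, ?_⟩
  · rw [Finset.eq_empty_iff_forall_notMem]
    intro e he
    have h1 := D.res_subset_of_subset hWZ m H he
    have h2 := ((D.mem_res).mp he).2 (dep m (D.lev H e)) le_rfl
    exact h2 (Finset.mem_union_right _ (D.mem_pieces.mpr ⟨h1, rfl⟩))
  · intro m' hm'
    have h1 := hh m' hm'
    obtain ⟨hlt, -⟩ := Finset.mem_Ioc.mp hm'
    rw [D.wU_pieces, D.cnt0_pieces, ← Finset.sum_filter]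
    set S0 := (D.res m W H).filter (fun e => dep m (D.lev H e) = 0) with hS0
    have hd : ∀ e ∈ S0, dep m' (D.lev H e) = 0 := fun e he => by
      have := dep_anti hlt.le (D.lev H e)
      have h0 := (Finset.mem_filter.mp he).2
      omega
    have hsub : D.res m' Z H ∪ S0 ⊆ D.res m' W H :=
      Finset.union_subset (D.res_subset_of_subset hWZ m' H)
        ((Finset.filter_subset _ _).trans (D.res_mono hlt.le W H))
    have hdisj : Disjoint (D.res m' Z H) S0 := by
      rw [Finset.disjoint_right]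
      intro e he he'
      have h0 := (Finset.mem_filter.mp he).2
      have h2 := ((D.mem_res).mp he').2 0 (Nat.zero_le _)
      exact h2 (Finset.mem_union_right _
        (D.mem_pieces.mpr ⟨(Finset.mem_filter.mp he).1, h0.symm⟩))
    have h3 : D.wR m' Z H + ∑ e ∈ S0, (1 : ℝ) ≤ D.wR m' W H := by
      have h4 : ∑ e ∈ S0, (1 : ℝ) = ∑ e ∈ S0, (1 / 2 : ℝ) ^ (dep m' (D.lev H e)) :=
        Finset.sum_congr rfl fun e he => by rw [hd e he, pow_zero]
      rw [h4]
      unfold wR
      rw [← Finset.sum_union hdisj]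
      exact Finset.sum_le_sum_of_subset_of_nonneg hsub fun i _ _ => by positivity
    linarith

lemma ident {m : ℤ} {W : Finset (X × ℕ)} {H H₃ : Finset X} (hF : D.Frag m W H)
    (hC : D.Cand m (W ∪ D.pieces m W H) (cnt0 (D.pieces m W H)) (wU (D.pieces m W H)) H₃) :
    eps * D.cC m H₃ < ((D.pieces m W H).card : ℝ) ∧
      ∀ c ∈ D.pieces m W H, c.1 ∈ D.slice m (W ∪ D.pieces m W H) H₃ c.2 := by
  obtain ⟨-, -, hmin⟩ := hF
  obtain ⟨hH₃, hres, hhist⟩ := hC
  have hUeq := D.wU_pieces m W H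
  rw [hUeq, D.cnt0_pieces] at hhist
  set T := D.res m W H with hT
  set Z := W ∪ D.pieces m W H with hZ
  have hWZ : W ⊆ Z := Finset.subset_union_left
  have claim : ∀ (k : ℤ) (e : X), e ∈ D.res k W H₃ → e ∉ D.res k Z H₃ →
      e ∈ T ∧ dep m (D.lev H e) ≤ dep k (D.lev H₃ e) := by
    intro k e h1 h2
    obtain ⟨h1s, h1u⟩ := (D.mem_res).mp h1
    rw [mem_res] at h2
    simp only [h1s, true_and, Unhit] at h2
    push Not at h2
    obtain ⟨i, hi, hiZ⟩ := h2
    rcases Finset.mem_union.mp hiZ with hW | hP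
    · exact absurd hW (h1u i hi)
    · obtain ⟨h3, h4⟩ := D.mem_pieces.mp hP
      simp only at h3 h4
      exact ⟨h3, h4 ▸ hi⟩
  have hres3 : D.res m W H₃ ⊆ T := fun e he => (claim m e he (by simp [hres])).1
  have hU3 : D.wR m W H₃ = ∑ e ∈ T, if e ∈ D.res m W H₃
      then (1 / 2 : ℝ) ^ (dep m (D.lev H₃ e)) else 0 := by
    rw [Finset.sum_ite_mem, Finset.inter_eq_right.mpr hres3]
    rfl
  have hfu : ∀ e ∈ T, (if e ∈ D.res m W H₃ then (1 / 2 : ℝ) ^ (dep m (D.lev H₃ e)) else 0) ≤
      (1 / 2 : ℝ) ^ (dep m (D.lev H e)) := by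
    intro e _
    split
    · next h =>
      exact pow_le_pow_of_le_one (by norm_num) (by norm_num) (claim m e h (by simp [hres])).2
    · positivity
  have hh3 : D.Hist m W H₃ := by
    intro m' hm'
    obtain ⟨hlt, -⟩ := Finset.mem_Ioc.mp hm'
    have h1 := hhist m' hm'
    set Ext := D.res m' W H₃ \ D.res m' Z H₃ with hExt
    have hExtT : Ext ⊆ T := fun e he =>
      (claim m' e (Finset.mem_sdiff.mp he).1 (Finset.mem_sdiff.mp he).2).1
    have hsplit : D.wR m' W H₃ = D.wR m' Z H₃ + ∑ e ∈ T, if e ∈ Ext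
        then (1 / 2 : ℝ) ^ (dep m' (D.lev H₃ e)) else 0 := by
      rw [Finset.sum_ite_mem, Finset.inter_eq_right.mpr hExtT]
      unfold wR
      rw [hExt, ← Finset.sum_sdiff (D.res_subset_of_subset hWZ m' H₃)]
      ring
    have hper : ∀ e ∈ T, (if e ∈ Ext then (1 / 2 : ℝ) ^ (dep m' (D.lev H₃ e)) else 0) +
        2 * (if e ∈ D.res m W H₃ then (1 / 2 : ℝ) ^ (dep m (D.lev H₃ e)) else 0) ≤
        (if dep m (D.lev H e) = 0 then (1 : ℝ) else 0) +
          2 * (1 / 2 : ℝ) ^ (dep m (D.lev H e)) := by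
      intro e he
      have hu := hfu e he
      by_cases h0 : dep m (D.lev H e) = 0
      · rw [if_pos h0]
        have hx : (if e ∈ Ext then (1 / 2 : ℝ) ^ (dep m' (D.lev H₃ e)) else 0) ≤ 1 := by
          split
          · exact pow_le_one₀ (by norm_num) (by norm_num)
          · norm_num
        linarith
      · rw [if_neg h0]
        by_cases hx : e ∈ Ext
        · rw [if_pos hx]
          obtain ⟨-, hd⟩ := claim m' e (Finset.mem_sdiff.mp hx).1 (Finset.mem_sdiff.mp hx).2
          have hd' : dep m (D.lev H e) + 1 ≤ dep m (D.lev H₃ e) := by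
            unfold dep at hd h0 ⊢
            omega
          have hA : (1 / 2 : ℝ) ^ (dep m' (D.lev H₃ e)) ≤ (1 / 2 : ℝ) ^ (dep m (D.lev H e)) :=
            pow_le_pow_of_le_one (by norm_num) (by norm_num) hd
          have hB : (if e ∈ D.res m W H₃ then (1 / 2 : ℝ) ^ (dep m (D.lev H₃ e)) else 0) ≤
              (1 / 2 : ℝ) ^ (dep m (D.lev H e)) * (1 / 2) := by
            split
            · rw [← pow_succ]
              exact pow_le_pow_of_le_one (by norm_num) (by norm_num) hd'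
            · positivity
          linarith
        · rw [if_neg hx]
          linarith
    have hsum := Finset.sum_le_sum hper
    rw [Finset.sum_add_distrib, Finset.sum_add_distrib, ← Finset.mul_sum, ← Finset.mul_sum,
      ← hU3] at hsum
    have hTU : ∑ e ∈ T, (1 / 2 : ℝ) ^ (dep m (D.lev H e)) = D.wR m W H := rfl
    linarith
  obtain ⟨hle, hbig⟩ := hmin H₃ hH₃ hres3 hh3
  have hge : D.wR m W H₃ ≤ D.wR m W H := hU3.trans_le (Finset.sum_le_sum hfu)
  have heq : D.wR m W H₃ = D.wR m W H := le_antisymm hge hle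
  have hall := (Finset.sum_eq_sum_iff_of_le hfu).mp (hU3.symm.trans heq)
  refine ⟨?_, ?_⟩
  · rw [heq, ← hUeq] at hbig
    exact lt_of_lt_of_le hbig (wU_le_card _)
  · intro c hc
    obtain ⟨hc1, hc2⟩ := D.mem_pieces.mp hc
    have h := hall c.1 hc1
    have hmem : c.1 ∈ D.res m W H₃ := by
      by_contra hn
      rw [if_neg hn] at h
      exact absurd h (ne_of_lt (by positivity))
    rw [if_pos hmem] at h
    have hdeq : dep m (D.lev H₃ c.1) = dep m (D.lev H c.1) :=
      pow_right_injective₀ (by norm_num : (0 : ℝ) < 1 / 2) (by norm_num) h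
    obtain ⟨hs3, hu3⟩ := (D.mem_res).mp hmem
    refine Finset.mem_filter.mpr ⟨hs3, hdeq.trans hc2.symm, fun l hl => ?_⟩
    intro hlZ
    rcases Finset.mem_union.mp hlZ with hW | hP
    · exact hu3 l (by omega) hW
    · have := (D.mem_pieces.mp hP).2
      simp only at this
      omega

lemma slice_card_le {m : ℤ} {Z : Finset (X × ℕ)} {a u : ℝ} {H : Finset X}
    (hC : D.Cand m Z a u H) (ha : 0 ≤ a) (hu : 0 ≤ u) (i : ℕ) :
    ((D.slice m Z H i).card : ℝ) ≤ 2 ^ i * D.cC m H := by
  obtain ⟨hH, -, hhist⟩ := hC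
  rcases Nat.eq_zero_or_pos i with rfl | hi
  · rw [pow_zero, one_mul]
    refine D.card_lev_le_cC H _ (Finset.filter_subset _ _) fun e he => ?_
    have := (Finset.mem_filter.mp he).2.1
    unfold dep at this
    omega
  rcases (D.slice m Z H i).eq_empty_or_nonempty with he | ⟨e₀, he₀⟩
  · rw [he, Finset.card_empty, Nat.cast_zero]
    exact mul_nonneg (by positivity) (D.cC_pos m H).le
  obtain ⟨he₀s, he₀d, -⟩ := Finset.mem_filter.mp he₀
  have hlev := D.lev_le H hH e₀ he₀s
  unfold dep at he₀d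
  have h1 := hhist (m + 1) (Finset.mem_Ioc.mpr ⟨by omega, by omega⟩)
  rw [show m + 1 - m = 1 by ring, bb_one] at h1
  have hsub : D.slice m Z H i ⊆ D.res (m + 1) Z H := by
    intro e he
    obtain ⟨hs, hd, hun⟩ := Finset.mem_filter.mp he
    rw [mem_res]
    refine ⟨hs, fun l hl => hun l ?_⟩
    unfold dep at hd hl
    omega
  have h2 : ((D.slice m Z H i).card : ℝ) * (1 / 2) ^ (i - 1) ≤ D.wR (m + 1) Z H := by
    refine le_trans ?_ (Finset.sum_le_sum_of_subset_of_nonneg hsub fun _ _ _ => by positivity)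
    refine le_trans (le_of_eq ?_) (Finset.sum_le_sum (f := fun _ => (1 / 2 : ℝ) ^ (i - 1))
      fun e he => ?_)
    · simp
    · obtain ⟨-, hd, -⟩ := Finset.mem_filter.mp he
      refine le_of_eq ?_
      congr 1
      unfold dep at hd ⊢
      omega
  have h3 : ((D.slice m Z H i).card : ℝ) * (1 / 2) ^ (i - 1) ≤ 24 * eps * D.cC m H := by
    have h4 := mul_le_mul_of_nonneg_left (D.cC_succ_le m H) eps_pos.le
    linarith
  obtain ⟨j, rfl⟩ : ∃ j, i = j + 1 := ⟨i - 1, by omega⟩
  rw [Nat.add_sub_cancel, div_pow, one_pow, mul_one_div, div_le_iff₀ (by positivity)] at h3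
  refine h3.trans ?_
  rw [pow_succ]
  have h5 : 0 ≤ D.cC m H * (2 : ℝ) ^ j := mul_nonneg (D.cC_pos m H).le (by positivity)
  unfold eps
  linarith

end LevelSys

end Vale.Agent.P034
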