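import Vale.Agent.P034.Descent
import Vale.Agent.P034.Measure

/-!
The level system of a weight function, and the weight of the quickly hit sets.
-/

namespace Vale.Agent.P034

open Finset
open scoped Classical

variable {X : Type}

/-- The total weight inside `H`. -/
noncomputable def totW (g : Finset X → ℝ) (H : Finset X) : ℝ := ∑ S ∈ H.powerset, g S

/-- The weight at the element `e`, shared inside each set. -/
noncomputable def locW (g : Finset X → ℝ) (H : Finset X) (e : X) : ℝ :=
  ∑ S ∈ H.powerset.filter (fun S => e ∈ S), g S / S.card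

/-- The normalized weight at the element `e`. -/
noncomputable def nu (g : Finset X → ℝ) (H : Finset X) (e : X) : ℝ := locW g H e / totW g H

/-- The support. -/
noncomputable def suppOf (g : Finset X → ℝ) (H : Finset X) : Finset X :=
  H.filter (fun e => 0 < nu g H e)

/-- The level of an element. -/
noncomputable def levOf (g : Finset X → ℝ) (H : Finset X) (e : X) : ℕ :=
  Nat.log 4 ⌊1 / nu g H e⌋₊

lemma locW_nonneg {g : Finset X → ℝ} (hg : ∀ S, 0 ≤ g S) (H : Finset X) (e : X) :
    0 ≤ locW g H e :=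
  Finset.sum_nonneg fun S _ => div_nonneg (hg S) (Nat.cast_nonneg _)

lemma sum_locW_mul {g : Finset X → ℝ} (H : Finset X) (f : X → ℝ) :
    ∑ e ∈ H, f e * locW g H e = ∑ S ∈ H.powerset, g S / S.card * ∑ e ∈ S, f e := by
  unfold locW
  simp only [Finset.mul_sum, Finset.sum_filter, mul_ite, mul_zero]
  rw [Finset.sum_comm]
  refine Finset.sum_congr rfl fun S hS => ?_
  rw [← Finset.sum_filter, Finset.filter_mem_eq_inter,
    Finset.inter_eq_right.mpr (Finset.mem_powerset.mp hS)]
  exact Finset.sum_congr rfl fun e _ => mul_comm _ _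

lemma sum_locW {g : Finset X → ℝ} (h0 : g ∅ = 0) (H : Finset X) :
    ∑ e ∈ H, locW g H e = totW g H := by
  have h := sum_locW_mul (g := g) H (fun _ => 1)
  simp only [one_mul] at h
  rw [h]
  refine Finset.sum_congr rfl fun S _ => ?_
  rcases S.eq_empty_or_nonempty with rfl | hS
  · simp [h0]
  · have : (S.card : ℝ) ≠ 0 := by exact_mod_cast hS.card_pos.ne'
    simp only [Finset.sum_const, nsmul_eq_mul, mul_one]
    field_simp

lemma sum_nu {g : Finset X → ℝ} (h0 : g ∅ = 0) {H : Finset X} (hT : 0 < totW g H) :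
    ∑ e ∈ H, nu g H e = 1 := by
  unfold nu
  rw [← Finset.sum_div, sum_locW h0, div_self hT.ne']

lemma nu_nonneg {g : Finset X → ℝ} (hg : ∀ S, 0 ≤ g S) (H : Finset X) (e : X) :
    0 ≤ nu g H e :=
  div_nonneg (locW_nonneg hg H e) (Finset.sum_nonneg fun S _ => hg S)

lemma nu_bounds {g : Finset X → ℝ} (hg : ∀ S, 0 ≤ g S) (h0 : g ∅ = 0) {H : Finset X}
    (hT : 0 < totW g H) {e : X} (he : e ∈ suppOf g H) :
    nu g H e ≤ (1 / 4 : ℝ) ^ levOf g H e ∧ (1 / 4 : ℝ) ^ levOf g H e ≤ 4 * nu g H e := by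
  obtain ⟨heH, hpos⟩ := Finset.mem_filter.mp he
  have h1 : nu g H e ≤ 1 := by
    rw [← sum_nu h0 hT]
    exact Finset.single_le_sum (fun x _ => nu_nonneg hg H x) heH
  have hinv : 1 ≤ 1 / nu g H e := by rwa [le_div_iff₀ hpos, one_mul]
  have hfl : ⌊1 / nu g H e⌋₊ ≠ 0 := (Nat.floor_pos.mpr hinv).ne'
  unfold levOf
  set k := Nat.log 4 ⌊1 / nu g H e⌋₊ with hk
  constructor
  · have hA : ((4 ^ k : ℕ) : ℝ) ≤ (⌊1 / nu g H e⌋₊ : ℝ) :=
      Nat.cast_le.mpr (Nat.pow_log_le_self 4 hfl)
    have hB := hA.trans (Nat.floor_le (by linarith : (0 : ℝ) ≤ 1 / nu g H e))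
    push_cast at hB
    rw [div_pow, one_pow, le_div_iff₀ (by positivity)]
    rw [le_div_iff₀ hpos] at hB
    linarith
  · have hA : ((⌊1 / nu g H e⌋₊ + 1 : ℕ) : ℝ) ≤ ((4 ^ (k + 1) : ℕ) : ℝ) :=
      Nat.cast_le.mpr (Nat.lt_pow_succ_log_self (by norm_num) _)
    have hB := (Nat.lt_floor_add_one (1 / nu g H e)).le
    push_cast at hA
    have hC := hB.trans hA
    rw [div_le_iff₀ hpos, pow_succ] at hC
    rw [div_pow, one_pow, div_le_iff₀ (by positivity)]
    linarith

variable [Fintype X]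

/-- The sets of weight at least one half. -/
noncomputable def hsOf (g : Finset X → ℝ) : Finset (Finset X) :=
  Finset.univ.filter (fun H => (1 / 2 : ℝ) ≤ totW g H)

/-- The level system of a weight function. -/
noncomputable def sysOf (g : Finset X → ℝ) (hg : ∀ S, 0 ≤ g S) (h0 : g ∅ = 0) : LevelSys X where
  Hs := hsOf g
  supp := suppOf g
  lev := levOf g
  top := (hsOf g).sup fun H => (suppOf g H).sup (levOf g H)
  supp_sub := fun H _ => Finset.filter_subset _ _
  lev_le := fun H hH e he =>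
    le_trans (Finset.le_sup (f := levOf g H) he)
      (Finset.le_sup (f := fun H => (suppOf g H).sup (levOf g H)) hH)
  kraft := fun H hH => by
    have hT : 0 < totW g H := lt_of_lt_of_le (by norm_num) (Finset.mem_filter.mp hH).2
    refine (Finset.sum_le_sum fun e he => (nu_bounds hg h0 hT he).2).trans ?_
    rw [← Finset.mul_sum]
    have h := Finset.sum_le_sum_of_subset_of_nonneg (f := fun e => nu g H e)
      (Finset.filter_subset (fun e => 0 < nu g H e) H) (fun i _ _ => nu_nonneg hg H i)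
    rw [sum_nu h0 hT] at h
    unfold suppOf
    linarith

/-- The hit patterns of `S` of total round number at most its size. -/
noncomputable def pats (r : ℕ) (S : Finset X) : Finset ((e : X) → e ∈ S → ℕ) :=
  (S.pi fun _ => Finset.range r).filter (fun p => ∑ x ∈ S.attach, p x.1 x.2 ≤ S.card)

/-- The coordinates of a pattern. -/
noncomputable def coords (S : Finset X) (p : (e : X) → e ∈ S → ℕ) : Finset (X × ℕ) :=
  S.attach.image (fun x => (x.1, p x.1 x.2))

/-- The weight of the quickly hit sets, counted by patterns. -/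
noncomputable def good (g : Finset X → ℝ) (r : ℕ) (W : Finset (X × ℕ)) : ℝ :=
  ∑ S, g S * ∑ p ∈ pats r S, if coords S p ⊆ W then 1 else 0

lemma good_nonneg {g : Finset X → ℝ} (hg : ∀ S, 0 ≤ g S) (r : ℕ) (W : Finset (X × ℕ)) :
    0 ≤ good g r W :=
  Finset.sum_nonneg fun S _ => mul_nonneg (hg S)
    (Finset.sum_nonneg fun p _ => by split <;> norm_num)

lemma expected_good_le {g : Finset X → ℝ} (hg : ∀ S, 0 ≤ g S) {q : ℝ} (hq : 0 ≤ q) (r : ℕ) :
    ∑ W ∈ (space X r).powerset, mu q r W * good g r W ≤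
      ∑ S, g S * (16 * LL * q) ^ S.card := by
  unfold good
  simp only [Finset.mul_sum]
  rw [Finset.sum_comm]
  refine Finset.sum_le_sum fun S _ => ?_
  rw [Finset.sum_comm]
  have hLq : 0 ≤ LL * q := mul_nonneg LL_pos.le hq
  have h1 : ∀ p ∈ pats r S, ∑ W ∈ (space X r).powerset,
      mu q r W * (g S * if coords S p ⊆ W then 1 else 0) ≤
        g S * ((8 * (LL * q)) ^ S.card * ∏ x ∈ S.attach, (1 / 2 : ℝ) ^ p x.1 x.2) := by
    intro p hp
    obtain ⟨hp1, hp2⟩ := Finset.mem_filter.mp hp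
    rw [Finset.mem_pi] at hp1
    have hsub : coords S p ⊆ space X r := by
      intro c hc
      obtain ⟨x, -, rfl⟩ := Finset.mem_image.mp hc
      exact mem_space.mpr (Finset.mem_range.mp (hp1 x.1 x.2))
    have he : ∀ W ∈ (space X r).powerset,
        mu q r W * (g S * if coords S p ⊆ W then 1 else 0) =
          g S * if coords S p ⊆ W then mu q r W else 0 := by
      intro W _
      split <;> ring
    rw [Finset.sum_congr rfl he, ← Finset.mul_sum, sum_mu_superset q r hsub]
    refine mul_le_mul_of_nonneg_left ?_ (hg S)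
    unfold coords
    rw [Finset.prod_image (fun a _ b _ hab => Subtype.ext (congrArg Prod.fst hab))]
    refine (Finset.prod_le_prod (fun x _ => dens_nonneg hq _)
      (fun x _ => min_le_right _ _)).trans ?_
    have e : ∀ x ∈ S.attach, LL * q * (4 : ℝ) ^ p x.1 x.2 =
        (LL * q) * ((8 : ℝ) ^ p x.1 x.2 * (1 / 2 : ℝ) ^ p x.1 x.2) := by
      intro x _
      rw [← mul_pow]
      norm_num
    rw [Finset.prod_congr rfl e]
    calc ∏ x ∈ S.attach, (LL * q) * ((8 : ℝ) ^ p x.1 x.2 * (1 / 2 : ℝ) ^ p x.1 x.2)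
        = ((LL * q) ^ S.card * (8 : ℝ) ^ (∑ x ∈ S.attach, p x.1 x.2)) *
            ∏ x ∈ S.attach, (1 / 2 : ℝ) ^ p x.1 x.2 := by
          rw [Finset.prod_mul_distrib (f := fun _ => LL * q), Finset.prod_const,
            Finset.card_attach, Finset.prod_mul_distrib, Finset.prod_pow_eq_pow_sum, mul_assoc]
      _ ≤ ((LL * q) ^ S.card * (8 : ℝ) ^ S.card) *
            ∏ x ∈ S.attach, (1 / 2 : ℝ) ^ p x.1 x.2 :=
          mul_le_mul_of_nonneg_right
            (mul_le_mul_of_nonneg_left (pow_le_pow_right₀ (by norm_num) hp2) (pow_nonneg hLq _))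
            (Finset.prod_nonneg fun x _ => by positivity)
      _ = (8 * (LL * q)) ^ S.card * ∏ x ∈ S.attach, (1 / 2 : ℝ) ^ p x.1 x.2 := by
          rw [← mul_pow, mul_comm (LL * q) 8]
  refine (Finset.sum_le_sum h1).trans ?_
  rw [← Finset.mul_sum, ← Finset.mul_sum]
  refine mul_le_mul_of_nonneg_left ?_ (hg S)
  have h2 : ∑ p ∈ pats r S, ∏ x ∈ S.attach, (1 / 2 : ℝ) ^ p x.1 x.2 ≤ (2 : ℝ) ^ S.card := by
    refine (Finset.sum_le_sum_of_subset_of_nonneg (Finset.filter_subset _ _)
      fun p _ _ => Finset.prod_nonneg fun x _ => by positivity).trans ?_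
    rw [← Finset.prod_sum S (fun _ => Finset.range r) (fun _ j => (1 / 2 : ℝ) ^ j)]
    refine (Finset.prod_le_prod (fun _ _ => Finset.sum_nonneg fun j _ => by positivity)
      (fun _ _ => sum_geometric_two_le r)).trans ?_
    rw [Finset.prod_const]
  calc (8 * (LL * q)) ^ S.card * ∑ p ∈ pats r S, ∏ x ∈ S.attach, (1 / 2 : ℝ) ^ p x.1 x.2
      ≤ (8 * (LL * q)) ^ S.card * (2 : ℝ) ^ S.card :=
        mul_le_mul_of_nonneg_left h2 (pow_nonneg (mul_nonneg (by norm_num) hLq) _)
    _ = (16 * LL * q) ^ S.card := by rw [← mul_pow]; ring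

lemma good_lower {g : Finset X → ℝ} (hg : ∀ S, 0 ≤ g S) (h0 : g ∅ = 0) {W : Finset (X × ℕ)}
    {r : ℕ} (hW : W ⊆ space X r) {H : Finset X} (hT : (1 / 2 : ℝ) ≤ totW g H) (h : X → ℕ)
    (hhit : ∀ e ∈ suppOf g H, (e, h e) ∈ W)
    (hsum : ∑ e ∈ suppOf g H, (1 / 4 : ℝ) ^ levOf g H e * h e ≤ 1 / 8) :
    (7 / 16 : ℝ) ≤ good g r W := by
  have hTpos : 0 < totW g H := lt_of_lt_of_le (by norm_num) hT
  have h1 : ∀ S ∈ H.powerset, g S - g S / S.card * ∑ e ∈ S, (h e : ℝ) ≤
      g S * ∑ p ∈ pats r S, if coords S p ⊆ W then (1 : ℝ) else 0 := by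
    intro S hS
    rw [Finset.mem_powerset] at hS
    have hnn : 0 ≤ ∑ p ∈ pats r S, if coords S p ⊆ W then (1 : ℝ) else 0 :=
      Finset.sum_nonneg fun p _ => by split <;> norm_num
    rcases eq_or_lt_of_le (hg S) with hz | hpos
    · rw [← hz]; simp
    have hne : S.Nonempty := by
      rw [Finset.nonempty_iff_ne_empty]
      rintro rfl
      rw [h0] at hpos
      exact lt_irrefl _ hpos
    have hcpos : (0 : ℝ) < S.card := by exact_mod_cast hne.card_pos
    by_cases hb : (S.card : ℝ) < ∑ e ∈ S, (h e : ℝ)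
    · have h2 : g S ≤ g S / S.card * ∑ e ∈ S, (h e : ℝ) := by
        calc g S = g S / S.card * S.card := by field_simp
          _ ≤ _ := mul_le_mul_of_nonneg_left hb.le (div_nonneg (hg S) hcpos.le)
      linarith [mul_nonneg (hg S) hnn]
    · have hsupp : ∀ e ∈ S, e ∈ suppOf g H := by
        intro e he
        refine Finset.mem_filter.mpr ⟨hS he, div_pos ?_ hTpos⟩
        refine lt_of_lt_of_le (div_pos hpos hcpos) ?_
        exact Finset.single_le_sum (f := fun S : Finset X => g S / (S.card : ℝ))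
          (fun T _ => div_nonneg (hg T) (Nat.cast_nonneg _))
          (Finset.mem_filter.mpr ⟨Finset.mem_powerset.mpr hS, he⟩)
      have hp : (fun e (_ : e ∈ S) => h e) ∈ pats r S := by
        refine Finset.mem_filter.mpr ⟨?_, ?_⟩
        · rw [Finset.mem_pi]
          intro e he
          exact Finset.mem_range.mpr (mem_space.mp (hW (hhit e (hsupp e he))))
        · rw [Finset.sum_attach S h]
          push Not at hb
          exact_mod_cast hb
      have hc : coords S (fun e (_ : e ∈ S) => h e) ⊆ W := by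
        intro c hc
        obtain ⟨x, -, rfl⟩ := Finset.mem_image.mp hc
        exact hhit x.1 (hsupp x.1 x.2)
      have h3 : (1 : ℝ) ≤ ∑ p ∈ pats r S, if coords S p ⊆ W then (1 : ℝ) else 0 := by
        refine le_trans ?_ (Finset.single_le_sum (f := fun p =>
          if coords S p ⊆ W then (1 : ℝ) else 0) (fun p _ => by split <;> norm_num) hp)
        rw [if_pos hc]
      have h4 : g S * 1 ≤ g S * ∑ p ∈ pats r S, if coords S p ⊆ W then (1 : ℝ) else 0 :=
        mul_le_mul_of_nonneg_left h3 (hg S)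
      have h5 : 0 ≤ g S / S.card * ∑ e ∈ S, (h e : ℝ) :=
        mul_nonneg (div_nonneg (hg S) hcpos.le) (Finset.sum_nonneg fun e _ => Nat.cast_nonneg _)
      linarith
  have h2 := Finset.sum_le_sum h1
  rw [Finset.sum_sub_distrib, ← sum_locW_mul H (fun e => (h e : ℝ))] at h2
  have h3 : ∑ S ∈ H.powerset, g S * ∑ p ∈ pats r S, (if coords S p ⊆ W then (1 : ℝ) else 0) ≤
      good g r W :=
    Finset.sum_le_sum_of_subset_of_nonneg (Finset.subset_univ _) fun S _ _ => mul_nonneg (hg S)
      (Finset.sum_nonneg fun p _ => by split <;> norm_num)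
  have h4 : ∑ e ∈ H, (h e : ℝ) * locW g H e ≤
      totW g H * ∑ e ∈ suppOf g H, (1 / 4 : ℝ) ^ levOf g H e * h e := by
    have e1 : ∑ e ∈ H, (h e : ℝ) * locW g H e = ∑ e ∈ suppOf g H, (h e : ℝ) * locW g H e := by
      refine (Finset.sum_subset (Finset.filter_subset _ _) ?_).symm
      intro e he hne
      have hnu : nu g H e ≤ 0 := not_lt.mp fun hp => hne (Finset.mem_filter.mpr ⟨he, hp⟩)
      have : locW g H e = 0 := by
        have h6 := locW_nonneg hg H e
        have h7 : locW g H e = nu g H e * totW g H := by unfold nu; field_simp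
        linarith [mul_nonpos_of_nonpos_of_nonneg hnu hTpos.le]
      rw [this, mul_zero]
    rw [e1, Finset.mul_sum]
    refine Finset.sum_le_sum fun e he => ?_
    have h6 := (nu_bounds hg h0 hTpos he).1
    have h7 : locW g H e = nu g H e * totW g H := by unfold nu; field_simp
    rw [h7]
    calc (h e : ℝ) * (nu g H e * totW g H)
        ≤ (h e : ℝ) * ((1 / 4 : ℝ) ^ levOf g H e * totW g H) :=
          mul_le_mul_of_nonneg_left (mul_le_mul_of_nonneg_right h6 hTpos.le) (Nat.cast_nonneg _)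
      _ = _ := by ring
  have h5 : totW g H * ∑ e ∈ suppOf g H, (1 / 4 : ℝ) ^ levOf g H e * h e ≤
      totW g H * (1 / 8) := mul_le_mul_of_nonneg_left hsum hTpos.le
  have h6 : totW g H = ∑ S ∈ H.powerset, g S := rfl
  linarith

end Vale.Agent.P034
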