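import Vale.Agent.P034.Defs
import Vale.Agent.P034.Cost
import Vale.Agent.P034.Weight

/-!
The comparison of the fractional and the integral expectation thresholds.
-/

namespace Vale.Agent.P034

open Finset
open scoped Classical

variable {X : Type} [Fintype X]

lemma exists_cover_of_weight (F : Finset (Finset X)) (g : Finset X → ℝ) (hg : ∀ S, 0 ≤ g S)
    (h0 : g ∅ = 0) (hF : ∀ H ∈ F, (1 / 2 : ℝ) ≤ totW g H) {q : ℝ} (hq : 0 ≤ q)
    (hsmall : ∑ S, g S * (16 * LL * q) ^ S.card ≤ 1 / 100) :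
    ∃ G : Finset (Finset X), Covers G F ∧ ∑ T ∈ G, q ^ T.card ≤ 1 / 2 := by
  set D := sysOf g hg h0 with hD
  set r := 2 * D.top + 1 with hr
  set v : Finset (X × ℕ) → ℝ := fun W => (∑ T ∈ D.cover W, q ^ T.card) + good g r W with hv
  have hE : ∑ W ∈ (space X r).powerset, mu q r W * v W < 1 / 4 := by
    simp only [hv, mul_add, Finset.sum_add_distrib]
    have h1 := D.expected_cost_le hq
    have h2 := (expected_good_le hg hq r).trans hsmall
    have h3 : 80 / LL + 172800 / (eps * LL) < (1 / 5 : ℝ) := by unfold eps LL; norm_num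
    linarith
  obtain ⟨W, hW, hvW⟩ : ∃ W ∈ (space X r).powerset, v W < 1 / 4 := by
    by_contra hc
    push Not at hc
    have h1 : ∑ W ∈ (space X r).powerset, mu q r W * (1 / 4) ≤
        ∑ W ∈ (space X r).powerset, mu q r W * v W :=
      Finset.sum_le_sum fun W hW => mul_le_mul_of_nonneg_left (hc W hW) (mu_nonneg hq r W)
    rw [← Finset.sum_mul, sum_mu, one_mul] at h1
    linarith
  have hcost : 0 ≤ ∑ T ∈ D.cover W, q ^ T.card := Finset.sum_nonneg fun T _ => pow_nonneg hq _
  have hgood := good_nonneg hg r W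
  simp only [hv] at hvW
  refine ⟨D.cover W, fun H hH => ?_, by linarith⟩
  by_contra hno
  push Not at hno
  have hHs : H ∈ D.Hs := Finset.mem_filter.mpr ⟨Finset.mem_univ H, hF H hH⟩
  obtain ⟨H₀, hH₀, h, hhit, hsum⟩ := D.exists_hits hHs hno
  have := good_lower (r := r) hg h0 (Finset.mem_powerset.mp hW)
    (Finset.mem_filter.mp hH₀).2 h hhit hsum
  linarith

lemma div_mem_of_fractional (F : Finset (Finset X)) (g : Finset X → ℝ)
    (hg : ∀ S, g S ∈ Set.Icc (0 : ℝ) 1) (hcov : ∀ H ∈ F, 1 ≤ ∑ S ∈ H.powerset, g S)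
    {p : ℝ} (hp : p ∈ Set.Icc (0 : ℝ) 1) (hcost : ∑ S, g S * p ^ S.card ≤ 1 / 2) :
    ∃ G : Finset (Finset X), Covers G F ∧
      ∑ T ∈ G, (p / 2 ^ 60) ^ T.card ≤ 1 / 2 := by
  have hnn : ∀ S : Finset X, 0 ≤ g S * p ^ S.card :=
    fun S => mul_nonneg (hg S).1 (pow_nonneg hp.1 _)
  have hempty : g ∅ ≤ 1 / 2 := by
    have := (Finset.single_le_sum (fun S _ => hnn S) (Finset.mem_univ (∅ : Finset X))).trans hcost
    simpa using this
  set g' : Finset X → ℝ := fun S => if S = ∅ then 0 else g S with hg'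
  have hg'nn : ∀ S, 0 ≤ g' S := fun S => by
    simp only [hg']; split
    · norm_num
    · exact (hg S).1
  refine exists_cover_of_weight F g' hg'nn (by simp [hg']) (fun H hH => ?_)
    (div_nonneg hp.1 (by norm_num)) ?_
  · have h1 : ∑ S ∈ H.powerset, g S ≤ totW g' H + g ∅ := by
      unfold totW
      rw [← Finset.add_sum_erase _ g (Finset.empty_mem_powerset H),
        ← Finset.add_sum_erase _ g' (Finset.empty_mem_powerset H)]
      have : ∀ S ∈ H.powerset.erase ∅, g' S = g S := fun S hS => by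
        simp only [hg', if_neg (Finset.ne_of_mem_erase hS)]
      rw [Finset.sum_congr rfl this]
      have : g' ∅ = 0 := by simp [hg']
      linarith
    linarith [hcov H hH]
  · have h1 : ∀ S : Finset X, g' S * (16 * LL * (p / 2 ^ 60)) ^ S.card ≤
        (1 / 2 ^ 16) * (g S * p ^ S.card) := by
      intro S
      rcases S.eq_empty_or_nonempty with rfl | hS
      · simp only [hg', if_pos]
        rw [zero_mul]
        exact mul_nonneg (by norm_num) (hnn ∅)
      · simp only [hg', if_neg hS.ne_empty]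
        rw [show 16 * LL * (p / 2 ^ 60) = (1 / 2 ^ 16) * p by unfold LL; ring, mul_pow]
        calc g S * ((1 / 2 ^ 16) ^ S.card * p ^ S.card)
            = (1 / 2 ^ 16) ^ S.card * (g S * p ^ S.card) := by ring
          _ ≤ _ := mul_le_mul_of_nonneg_right
              (pow_le_of_le_one (by norm_num) (by norm_num) hS.card_pos.ne') (hnn S)
    refine (Finset.sum_le_sum fun S _ => h1 S).trans ?_
    rw [← Finset.mul_sum]
    linarith

/-- Talagrand's comparison, with an explicit constant. -/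
theorem qFrac_le (F : Finset (Finset X)) (h0 : ∅ ∉ F) : qFrac F ≤ 2 ^ 60 * qInt F := by
  set s : Set ℝ := {p : ℝ | p ∈ Set.Icc (0 : ℝ) 1 ∧
    ∃ G : Finset (Finset X), Covers G F ∧ ∑ S ∈ G, p ^ S.card ≤ 1 / 2} with hs
  have hbdd : BddAbove s := ⟨1, fun x hx => hx.1.2⟩
  have hz : (0 : ℝ) ∈ s := by
    refine ⟨⟨le_rfl, zero_le_one⟩, F, fun H hH => ⟨H, hH, subset_rfl⟩, ?_⟩
    have : ∀ S ∈ F, (0 : ℝ) ^ S.card = 0 := fun S hS =>
      zero_pow (fun hc => h0 (Finset.card_eq_zero.mp hc ▸ hS))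
    rw [Finset.sum_eq_zero this]
    norm_num
  have hq0 : 0 ≤ qInt F := le_csSup hbdd hz
  unfold qFrac
  refine Real.sSup_le ?_ (by positivity)
  rintro p ⟨hp, g, hg, hcov, hcost⟩
  obtain ⟨G, hG, hGc⟩ := div_mem_of_fractional F g hg hcov hp hcost
  have hmem : p / 2 ^ 60 ∈ s := by
    refine ⟨⟨div_nonneg hp.1 (by norm_num), ?_⟩, G, hG, hGc⟩
    exact (div_le_one (by norm_num)).mpr (hp.2.trans (one_le_pow₀ (by norm_num)))
  have : p / 2 ^ 60 ≤ qInt F := le_csSup hbdd hmem
  rw [div_le_iff₀ (by norm_num)] at this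
  linarith

end Vale.Agent.P034
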