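import Mathlib

/-!
The two-sided exponential profile used to compare residual weights with levels.
-/

namespace Vale.Agent.P034

open Finset

/-- `2 ^ d` for nonnegative `d`, and `8 ^ d` for negative `d`. -/
noncomputable def phi (d : ℤ) : ℝ := if 0 ≤ d then (2 : ℝ) ^ d else (8 : ℝ) ^ d

/-- The tolerance. -/
noncomputable def eps : ℝ := 1 / 600

/-- The density factor of the rounds. -/
noncomputable def LL : ℝ := 2 ^ 40

lemma eps_pos : 0 < eps := by unfold eps; norm_num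

lemma LL_pos : 0 < LL := by unfold LL; norm_num

lemma phi_pos (d : ℤ) : 0 < phi d := by
  unfold phi; split <;> positivity

lemma phi_of_nonneg {d : ℤ} (h : 0 ≤ d) : phi d = (2 : ℝ) ^ d := if_pos h

lemma phi_of_neg {d : ℤ} (h : d < 0) : phi d = (8 : ℝ) ^ d := if_neg (not_le.mpr h)

lemma one_le_phi {d : ℤ} (h : 0 ≤ d) : 1 ≤ phi d := by
  rw [phi_of_nonneg h]; exact one_le_zpow₀ (by norm_num) h

lemma two_phi_le (d : ℤ) : 2 * phi d ≤ phi (d + 1) := by
  rcases le_or_gt 0 d with h | h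
  · rw [phi_of_nonneg h, phi_of_nonneg (by omega : 0 ≤ d + 1), zpow_add₀ (by norm_num), zpow_one]
    linarith
  · rcases eq_or_lt_of_le (by omega : d ≤ -1) with h1 | h1
    · subst h1; unfold phi; norm_num
    · rw [phi_of_neg h, phi_of_neg (by omega : d + 1 < 0), zpow_add₀ (by norm_num), zpow_one]
      nlinarith [zpow_pos (by norm_num : (0 : ℝ) < 8) d]

lemma phi_succ_le (d : ℤ) : phi (d + 1) ≤ 8 * phi d := by
  rcases le_or_gt 0 d with h | h
  · rw [phi_of_nonneg h, phi_of_nonneg (by omega : 0 ≤ d + 1), zpow_add₀ (by norm_num), zpow_one]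
    nlinarith [zpow_pos (by norm_num : (0 : ℝ) < 2) d]
  · rcases eq_or_lt_of_le (by omega : d ≤ -1) with h1 | h1
    · subst h1; unfold phi; norm_num
    · rw [phi_of_neg h, phi_of_neg (by omega : d + 1 < 0), zpow_add₀ (by norm_num), zpow_one]
      linarith

lemma phi_sub_le {m : ℤ} (hm : m < 0) (k : ℕ) :
    phi (m - k) ≤ (8 : ℝ) ^ m * (1 / 4 : ℝ) ^ k := by
  rw [phi_of_neg (by omega), zpow_sub₀ (by norm_num), zpow_natCast]
  rw [div_eq_mul_inv]
  refine mul_le_mul_of_nonneg_left ?_ (by positivity)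
  rw [← inv_pow]
  exact pow_le_pow_left₀ (by norm_num) (by norm_num) k

lemma sum_half_natAbs_le (s : Finset ℤ) : ∑ j ∈ s, (1 / 2 : ℝ) ^ j.natAbs ≤ 3 := by
  rw [← Finset.sum_filter_add_sum_filter_not s (fun j => 0 ≤ j)]
  obtain ⟨N, hN⟩ : ∃ N : ℕ, ∀ j ∈ s, j.natAbs < N :=
    ⟨s.sup Int.natAbs + 1, fun j hj => Nat.lt_succ_of_le (Finset.le_sup hj)⟩
  have h1 : ∑ j ∈ s.filter (fun j => 0 ≤ j), (1 / 2 : ℝ) ^ j.natAbs ≤ 2 := by
    rw [← Finset.sum_image (f := fun n : ℕ => (1 / 2 : ℝ) ^ n)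
      (s := s.filter (fun j => 0 ≤ j)) (g := Int.natAbs)]
    · refine le_trans ?_ (sum_geometric_two_le N)
      refine Finset.sum_le_sum_of_subset_of_nonneg ?_ (fun i _ _ => by positivity)
      intro n hn
      simp only [Finset.mem_image, Finset.mem_filter] at hn
      obtain ⟨j, ⟨hj, -⟩, rfl⟩ := hn
      exact Finset.mem_range.mpr (hN j hj)
    · intro a ha b hb hab
      simp only [Finset.coe_filter, Set.mem_ofPred_eq] at ha hb
      omega
  have h2 : ∑ j ∈ s.filter (fun j => ¬ 0 ≤ j), (1 / 2 : ℝ) ^ j.natAbs ≤ 1 := by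
    have e : ∀ j ∈ s.filter (fun j => ¬ 0 ≤ j),
        (1 / 2 : ℝ) ^ j.natAbs = (1 / 2) * (1 / 2) ^ (j.natAbs - 1) := by
      intro j hj
      simp only [Finset.mem_filter] at hj
      rw [← pow_succ']
      congr 1
      omega
    rw [Finset.sum_congr rfl e, ← Finset.mul_sum,
      ← Finset.sum_image (f := fun n : ℕ => (1 / 2 : ℝ) ^ n)
      (s := s.filter (fun j => ¬ 0 ≤ j)) (g := fun j : ℤ => j.natAbs - 1)]
    · have : ∑ x ∈ (s.filter (fun j => ¬ 0 ≤ j)).image (fun j : ℤ => j.natAbs - 1),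
          (1 / 2 : ℝ) ^ x ≤ 2 := by
        refine le_trans ?_ (sum_geometric_two_le N)
        refine Finset.sum_le_sum_of_subset_of_nonneg ?_ (fun i _ _ => by positivity)
        intro n hn
        simp only [Finset.mem_image, Finset.mem_filter] at hn
        obtain ⟨j, ⟨hj, -⟩, rfl⟩ := hn
        have := hN j hj
        exact Finset.mem_range.mpr (by omega)
      linarith
    · intro a ha b hb hab
      simp only [Finset.coe_filter, Set.mem_ofPred_eq] at ha hb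
      simp only at hab
      omega
  linarith

lemma quarter_phi (m : ℤ) (k : ℕ) :
    (4 : ℝ) ^ (-m) * phi (m - k) = (1 / 4 : ℝ) ^ k * (1 / 2 : ℝ) ^ (m - k).natAbs := by
  obtain ⟨j, rfl⟩ : ∃ j : ℤ, m = j + k := ⟨m - k, by ring⟩
  rw [add_sub_cancel_right, neg_add, zpow_add₀ (by norm_num), zpow_neg (4 : ℝ) k, zpow_natCast]
  have hk : ((4 : ℝ) ^ k)⁻¹ = (1 / 4 : ℝ) ^ k := by rw [one_div, inv_pow]
  rw [hk]
  rcases le_or_gt 0 j with h | h
  · obtain ⟨n, rfl⟩ := Int.eq_ofNat_of_zero_le h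
    rw [phi_of_nonneg h, Int.natAbs_natCast, zpow_natCast, zpow_neg, zpow_natCast]
    rw [mul_right_comm, mul_comm ((1 / 4 : ℝ) ^ k)]
    congr 1
    rw [← inv_pow, ← mul_pow]
    norm_num
  · obtain ⟨n, rfl⟩ : ∃ n : ℕ, j = -(n : ℤ) := ⟨j.natAbs, by omega⟩
    rw [phi_of_neg h, Int.natAbs_neg, Int.natAbs_natCast, neg_neg, zpow_natCast,
      zpow_neg, zpow_natCast]
    rw [mul_right_comm, mul_comm ((1 / 4 : ℝ) ^ k)]
    congr 1
    rw [← inv_pow, ← mul_pow]
    norm_num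

lemma sum_quarter_phi_le (s : Finset ℤ) (k : ℕ) :
    ∑ m ∈ s, (4 : ℝ) ^ (-m) * phi (m - k) ≤ 3 * (1 / 4 : ℝ) ^ k := by
  simp_rw [quarter_phi, ← Finset.mul_sum]
  rw [mul_comm (3 : ℝ)]
  refine mul_le_mul_of_nonneg_left ?_ (by positivity)
  rw [← Finset.sum_image (f := fun j : ℤ => (1 / 2 : ℝ) ^ j.natAbs) (g := fun m : ℤ => m - k)]
  · exact sum_half_natAbs_le _
  · intro a _ b _ hab
    simpa using hab

lemma exp_sub_one_le {y : ℝ} (h0 : 0 ≤ y) (h1 : y ≤ 1) : Real.exp y - 1 ≤ 2 * y := by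
  have h := Real.abs_exp_sub_one_le (x := y) (by rw [abs_of_nonneg h0]; exact h1)
  rw [abs_of_nonneg h0] at h
  exact le_trans (le_abs_self _) h

end Vale.Agent.P034
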