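import Vale.Agent.P034.Count

/-!
Summation of the profile bounds over all nonzero profiles and all stages.
-/

namespace Vale.Agent.P034

open Finset
open scoped Classical

lemma geom_le_exp {a : ℝ} (h0 : 0 ≤ a) (h1 : a ≤ 1 / 2) (n : ℕ) :
    ∑ j ∈ Finset.range n, a ^ j ≤ Real.exp (2 * a) := by
  have h := geom_sum_mul a n
  have hn : 0 ≤ a ^ n := by positivity
  set S := ∑ j ∈ Finset.range n, a ^ j
  have h2 : S * (1 - a) ≤ (1 + 2 * a) * (1 - a) := by nlinarith
  have h3 : S ≤ 1 + 2 * a := le_of_mul_le_mul_right h2 (by linarith)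
  linarith [Real.add_one_le_exp (2 * a)]

lemma sum_profiles_le {r : ℕ} (a : Fin r → ℝ) (ha : ∀ i, 0 ≤ a i) (hs : ∑ i, a i ≤ 1 / 4)
    (n : ℕ) :
    ∑ t ∈ (Fintype.piFinset fun _ : Fin r => Finset.range (n + 1)).erase 0,
      ∏ i, a i ^ t i ≤ 4 * ∑ i, a i := by
  have hle : ∀ i, a i ≤ 1 / 4 := fun i =>
    le_trans (Finset.single_le_sum (fun j _ => ha j) (Finset.mem_univ i)) hs
  have h0 : (0 : Fin r → ℕ) ∈ Fintype.piFinset fun _ : Fin r => Finset.range (n + 1) := by
    rw [Fintype.mem_piFinset]; intro i; simp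
  have h1 := Finset.add_sum_erase _ (fun t => ∏ i, a i ^ t i) h0
  have h2 := Finset.prod_univ_sum (fun _ : Fin r => Finset.range (n + 1)) (fun i j => a i ^ j)
  simp only [Pi.zero_apply, pow_zero, Finset.prod_const_one] at h1
  have h3 : ∏ i, ∑ j ∈ Finset.range (n + 1), a i ^ j ≤ Real.exp (∑ i, 2 * a i) := by
    rw [Real.exp_sum]
    exact Finset.prod_le_prod (fun i _ => Finset.sum_nonneg fun j _ => pow_nonneg (ha i) j)
      (fun i _ => geom_le_exp (ha i) (by linarith [hle i]) _)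
  rw [← Finset.mul_sum] at h3
  have hn : 0 ≤ ∑ i, a i := Finset.sum_nonneg fun i _ => ha i
  have h4 := exp_sub_one_le (y := 2 * ∑ i, a i) (by linarith) (by linarith)
  linarith

lemma zpow_neg_sum_le (s : Finset ℤ) (hs : ∀ m ∈ s, m < 0) :
    ∑ m ∈ s, (8 : ℝ) ^ m ≤ 2 := by
  have h := sum_half_natAbs_le (insert 0 s)
  rw [Finset.sum_insert (fun h0 => lt_irrefl 0 (hs 0 h0))] at h
  simp only [Int.natAbs_zero, pow_zero] at h
  refine le_trans (Finset.sum_le_sum fun m hm => ?_) (by linarith : ∑ m ∈ s,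
    (1 / 2 : ℝ) ^ m.natAbs ≤ 2)
  have hneg := hs m hm
  obtain ⟨n, rfl⟩ : ∃ n : ℕ, m = -(n : ℤ) := ⟨m.natAbs, by omega⟩
  rw [Int.natAbs_neg, Int.natAbs_natCast, zpow_neg, zpow_natCast, ← inv_pow]
  exact pow_le_pow_left₀ (by norm_num) (by norm_num) n

lemma sum_aN_le (r : ℕ) (m : ℤ) : ∑ i : Fin r, aN m i ≤ 10 * (8 : ℝ) ^ m / LL := by
  unfold aN
  rw [Fin.sum_univ_eq_sum_range (fun i => 5 * (8 : ℝ) ^ m * (1 / 2 : ℝ) ^ i / LL) r,
    ← Finset.sum_div, ← Finset.mul_sum]
  refine div_le_div_of_nonneg_right ?_ LL_pos.le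
  have h8 : (0 : ℝ) ≤ (8 : ℝ) ^ m := by positivity
  have := mul_le_mul_of_nonneg_left (sum_geometric_two_le r)
    (by positivity : (0 : ℝ) ≤ 5 * (8 : ℝ) ^ m)
  linarith

lemma sum_zz_le (r : ℕ) : ∑ i : Fin r, zz i ≤ 36 / (eps * LL) := by
  unfold zz
  rw [Fin.sum_univ_eq_sum_range (fun i => 12 * (2 / 3 : ℝ) ^ i / (eps * LL)) r,
    ← Finset.sum_div, ← Finset.mul_sum]
  refine div_le_div_of_nonneg_right ?_ (mul_nonneg eps_pos.le LL_pos.le)
  have h := geom_sum_mul (2 / 3 : ℝ) r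
  have : (0 : ℝ) ≤ (2 / 3 : ℝ) ^ r := by positivity
  linarith

lemma count_stages_le (s : Finset ℤ) (N : ℕ) :
    ((s.filter (fun m => 0 ≤ m ∧ eps * (2 : ℝ) ^ m < (N : ℝ))).card : ℝ) ≤ 600 * N := by
  have h : (s.filter (fun m => 0 ≤ m ∧ eps * (2 : ℝ) ^ m < (N : ℝ))).card ≤
      (Finset.range (600 * N)).card := by
    refine Finset.card_le_card_of_injOn Int.toNat ?_ ?_
    · intro m hm
      rw [Finset.mem_coe, Finset.mem_filter] at hm
      obtain ⟨-, h0, h1⟩ := hm
      rw [Finset.mem_coe, Finset.mem_range]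
      obtain ⟨j, rfl⟩ := Int.eq_ofNat_of_zero_le h0
      rw [zpow_natCast] at h1
      rw [Int.toNat_natCast]
      have h2 : ((2 ^ j : ℕ) : ℝ) < ((600 * N : ℕ) : ℝ) := by
        push_cast
        unfold eps at h1
        linarith
      exact lt_trans Nat.lt_two_pow_self (Nat.cast_lt.mp h2)
    · intro a ha b hb hab
      rw [Finset.mem_coe, Finset.mem_filter] at ha hb
      omega
  rw [Finset.card_range] at h
  exact_mod_cast h

lemma sum_stBound_le (r n : ℕ) (s : Finset ℤ) :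
    ∑ m ∈ s, ∑ t ∈ (Fintype.piFinset fun _ : Fin r => Finset.range (n + 1)).erase 0,
      stBound m t ≤ 80 / LL + 172800 / (eps * LL) := by
  set P := (Fintype.piFinset fun _ : Fin r => Finset.range (n + 1)).erase 0 with hP
  rw [← Finset.sum_filter_add_sum_filter_not s (fun m => m < 0)]
  refine add_le_add ?_ ?_
  · have h1 : ∀ m ∈ s.filter (fun m => m < 0),
        ∑ t ∈ P, stBound m t ≤ 40 / LL * (8 : ℝ) ^ m := by
      intro m hm
      have hneg := (Finset.mem_filter.mp hm).2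
      have he : ∀ t ∈ P, stBound m t = ∏ i : Fin r, aN m i ^ t i := fun t _ => if_pos hneg
      rw [Finset.sum_congr rfl he]
      have hb := sum_aN_le r m
      have h8 : (8 : ℝ) ^ m ≤ 1 := zpow_le_one_of_nonpos₀ (by norm_num) hneg.le
      have hsmall : 10 * (8 : ℝ) ^ m / LL ≤ 1 / 4 := by
        rw [div_le_iff₀ LL_pos]; unfold LL; linarith
      refine (sum_profiles_le _ (fun i => aN_nonneg m i) (hb.trans hsmall) n).trans ?_
      calc 4 * ∑ i : Fin r, aN m i ≤ 4 * (10 * (8 : ℝ) ^ m / LL) :=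
            mul_le_mul_of_nonneg_left hb (by norm_num)
        _ = 40 / LL * (8 : ℝ) ^ m := by ring
    refine (Finset.sum_le_sum h1).trans ?_
    rw [← Finset.mul_sum]
    calc 40 / LL * ∑ m ∈ s.filter (fun m => m < 0), (8 : ℝ) ^ m ≤ 40 / LL * 2 :=
          mul_le_mul_of_nonneg_left
            (zpow_neg_sum_le _ fun m hm => (Finset.mem_filter.mp hm).2)
            (div_nonneg (by norm_num) LL_pos.le)
      _ = 80 / LL := by ring
  · rw [Finset.sum_comm]
    have h1 : ∀ t ∈ P, ∑ m ∈ s.filter (fun m => ¬ m < 0), stBound m t ≤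
        600 * ∏ i : Fin r, (2 * zz i) ^ t i := by
      intro t _
      set N := ∑ i : Fin r, t i with hN
      have he : ∀ m ∈ s.filter (fun m => ¬ m < 0), stBound m t =
          if eps * (2 : ℝ) ^ m < (N : ℝ) then ∏ i : Fin r, zz i ^ t i else 0 := by
        intro m hm
        have := (Finset.mem_filter.mp hm).2
        unfold stBound
        rw [if_neg this, hN, Nat.cast_sum]
      rw [Finset.sum_congr rfl he, ← Finset.sum_filter, Finset.sum_const, nsmul_eq_mul,
        Finset.filter_filter]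
      have hz : 0 ≤ ∏ i : Fin r, zz i ^ t i :=
        Finset.prod_nonneg fun i _ => pow_nonneg (zz_nonneg _) _
      have h2 : ((s.filter (fun m => ¬ m < 0 ∧ eps * (2 : ℝ) ^ m < (N : ℝ))).card : ℝ) ≤
          600 * (2 : ℝ) ^ N := by
        have h3 : (N : ℝ) ≤ (2 : ℝ) ^ N := by exact_mod_cast (Nat.lt_two_pow_self (n := N)).le
        refine le_trans ?_ (mul_le_mul_of_nonneg_left h3 (by norm_num : (0 : ℝ) ≤ 600))
        simp only [not_lt]
        exact count_stages_le s N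
      refine (mul_le_mul_of_nonneg_right h2 hz).trans (le_of_eq ?_)
      simp only [mul_pow, Finset.prod_mul_distrib, Finset.prod_pow_eq_pow_sum, hN]
      ring
    refine (Finset.sum_le_sum h1).trans ?_
    rw [← Finset.mul_sum]
    have hb := sum_zz_le r
    have hs2 : ∑ i : Fin r, 2 * zz i ≤ 72 / (eps * LL) := by
      rw [← Finset.mul_sum]
      calc 2 * ∑ i : Fin r, zz i ≤ 2 * (36 / (eps * LL)) :=
            mul_le_mul_of_nonneg_left hb (by norm_num)
        _ = 72 / (eps * LL) := by ring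
    have hsmall : 72 / (eps * LL) ≤ 1 / 4 := by unfold eps LL; norm_num
    calc 600 * ∑ t ∈ P, ∏ i : Fin r, (2 * zz i) ^ t i
        ≤ 600 * (4 * ∑ i : Fin r, 2 * zz i) :=
          mul_le_mul_of_nonneg_left (sum_profiles_le _
            (fun i => mul_nonneg (by norm_num) (zz_nonneg _)) (hs2.trans hsmall) n) (by norm_num)
      _ ≤ 600 * (4 * (72 / (eps * LL))) := by linarith
      _ = 172800 / (eps * LL) := by ring

end Vale.Agent.P034
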