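import Vale.Agent.P034.Phi

/-!
Level systems, residual sets, residual weights, history conditions and fragments.
-/

namespace Vale.Agent.P034

open Finset
open scoped Classical

/-- A level system: for each set in `Hs`, a support inside it with natural number levels. -/
structure LevelSys (X : Type) where
  Hs : Finset (Finset X)
  supp : Finset X → Finset X
  lev : Finset X → X → ℕ
  top : ℕ
  supp_sub : ∀ H ∈ Hs, supp H ⊆ H
  lev_le : ∀ H ∈ Hs, ∀ e ∈ supp H, lev H e ≤ top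
  kraft : ∀ H ∈ Hs, ∑ e ∈ supp H, (1 / 4 : ℝ) ^ (lev H e) ≤ 4

variable {X : Type}

/-- The depth at stage `m` of an element at level `k`. -/
def dep (m : ℤ) (k : ℕ) : ℕ := ((k : ℤ) - m).toNat

/-- The element `e` is not hit in the rounds up to `a`. -/
def Unhit (Z : Finset (X × ℕ)) (e : X) (a : ℕ) : Prop := ∀ i, i ≤ a → (e, i) ∉ Z

lemma dep_anti {m m' : ℤ} (h : m ≤ m') (k : ℕ) : dep m' k ≤ dep m k := by
  unfold dep; omega

lemma unhit_mono {Z : Finset (X × ℕ)} {e : X} {a b : ℕ} (h : Unhit Z e b) (hab : a ≤ b) :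
    Unhit Z e a := fun i hi => h i (hi.trans hab)

lemma unhit_subset {W Z : Finset (X × ℕ)} (hWZ : W ⊆ Z) {e : X} {a : ℕ} (h : Unhit Z e a) :
    Unhit W e a := fun i hi hW => h i hi (hWZ hW)

namespace LevelSys

variable (D : LevelSys X)

/-- The residual elements at stage `m`. -/
noncomputable def res (m : ℤ) (Z : Finset (X × ℕ)) (H : Finset X) : Finset X :=
  (D.supp H).filter (fun e => Unhit Z e (dep m (D.lev H e)))

/-- The residual weight at stage `m`. -/
noncomputable def wR (m : ℤ) (Z : Finset (X × ℕ)) (H : Finset X) : ℝ :=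
  ∑ e ∈ D.res m Z H, (1 / 2 : ℝ) ^ (dep m (D.lev H e))

/-- The comparison quantity at stage `m`, including a floor term. -/
noncomputable def cC (m : ℤ) (H : Finset X) : ℝ :=
  phi m + ∑ e ∈ D.supp H, phi (m - D.lev H e)

/-- The slowly growing coefficient. -/
noncomputable def bb (d : ℤ) : ℝ := 5 - 4 * (2 : ℝ) ^ (-d)

/-- The history condition at stage `m`. -/
def Hist (m : ℤ) (W : Finset (X × ℕ)) (H : Finset X) : Prop :=
  ∀ m' ∈ Finset.Ioc m (D.top : ℤ),
    D.wR m' W H + 2 * D.wR m W H ≤ bb (m' - m) * eps * D.cC m' H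

/-- The set `H` gives a fragment at stage `m`. -/
def Frag (m : ℤ) (W : Finset (X × ℕ)) (H : Finset X) : Prop :=
  H ∈ D.Hs ∧ D.Hist m W H ∧
    ∀ H' ∈ D.Hs, D.res m W H' ⊆ D.res m W H → D.Hist m W H' →
      D.wR m W H ≤ D.wR m W H' ∧ eps * D.cC m H' < D.wR m W H'

/-- The stages. -/
noncomputable def stages : Finset ℤ := Finset.Icc (-(D.top : ℤ)) (D.top : ℤ)

/-- The cover sets of stage `m`. -/
noncomputable def coverAt (m : ℤ) (W : Finset (X × ℕ)) : Finset (Finset X) :=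
  (D.Hs.filter (fun H => D.Frag m W H)).image (fun H => D.res m W H)

/-- The whole cover family of `W`. -/
noncomputable def cover (W : Finset (X × ℕ)) : Finset (Finset X) :=
  D.stages.biUnion (fun m => D.coverAt m W)

lemma mem_res {m : ℤ} {Z : Finset (X × ℕ)} {H : Finset X} {e : X} :
    e ∈ D.res m Z H ↔ e ∈ D.supp H ∧ Unhit Z e (dep m (D.lev H e)) := Finset.mem_filter

lemma res_mono {m m' : ℤ} (h : m ≤ m') (Z : Finset (X × ℕ)) (H : Finset X) :
    D.res m Z H ⊆ D.res m' Z H := by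
  intro e he
  rw [mem_res] at he ⊢
  exact ⟨he.1, unhit_mono he.2 (dep_anti h _)⟩

lemma res_subset_of_subset {W Z : Finset (X × ℕ)} (hWZ : W ⊆ Z) (m : ℤ) (H : Finset X) :
    D.res m Z H ⊆ D.res m W H := by
  intro e he
  rw [mem_res] at he ⊢
  exact ⟨he.1, unhit_subset hWZ he.2⟩

lemma wR_nonneg (m : ℤ) (Z : Finset (X × ℕ)) (H : Finset X) : 0 ≤ D.wR m Z H :=
  Finset.sum_nonneg (fun _ _ => by positivity)

lemma wR_mono {m m' : ℤ} (h : m ≤ m') (Z : Finset (X × ℕ)) (H : Finset X) :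
    D.wR m Z H ≤ D.wR m' Z H := by
  unfold wR
  refine le_trans (Finset.sum_le_sum fun e _ => ?_)
    (Finset.sum_le_sum_of_subset_of_nonneg (D.res_mono h Z H) fun i _ _ => by positivity)
  exact pow_le_pow_of_le_one (by norm_num) (by norm_num) (dep_anti h _)

lemma cC_pos (m : ℤ) (H : Finset X) : 0 < D.cC m H :=
  add_pos_of_pos_of_nonneg (phi_pos m) (Finset.sum_nonneg fun _ _ => (phi_pos _).le)

lemma two_cC_le (m : ℤ) (H : Finset X) : 2 * D.cC m H ≤ D.cC (m + 1) H := by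
  unfold cC
  rw [mul_add, Finset.mul_sum]
  refine add_le_add (two_phi_le m) (Finset.sum_le_sum fun e _ => ?_)
  rw [show m + 1 - (D.lev H e : ℤ) = (m - D.lev H e) + 1 by ring]
  exact two_phi_le _

lemma cC_succ_le (m : ℤ) (H : Finset X) : D.cC (m + 1) H ≤ 8 * D.cC m H := by
  unfold cC
  rw [mul_add, Finset.mul_sum]
  refine add_le_add (phi_succ_le m) (Finset.sum_le_sum fun e _ => ?_)
  rw [show m + 1 - (D.lev H e : ℤ) = (m - D.lev H e) + 1 by ring]
  exact phi_succ_le _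

lemma pow_two_cC_le (m : ℤ) (n : ℕ) (H : Finset X) :
    (2 : ℝ) ^ n * D.cC m H ≤ D.cC (m + n) H := by
  induction n with
  | zero => simp
  | succ n ih =>
    have h := D.two_cC_le (m + n) H
    rw [show m + ((n + 1 : ℕ) : ℤ) = m + n + 1 by push_cast; ring, pow_succ]
    linarith

lemma cC_le_of_neg {m : ℤ} (hm : m < 0) {H : Finset X} (hH : H ∈ D.Hs) :
    D.cC m H ≤ 5 * (8 : ℝ) ^ m := by
  have h8 : (0 : ℝ) ≤ (8 : ℝ) ^ m := by positivity
  have h : ∑ e ∈ D.supp H, phi (m - D.lev H e) ≤ (8 : ℝ) ^ m * 4 := by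
    refine le_trans (Finset.sum_le_sum fun e _ => phi_sub_le hm _) ?_
    rw [← Finset.mul_sum]
    exact mul_le_mul_of_nonneg_left (D.kraft H hH) h8
  unfold cC
  rw [phi_of_neg hm]
  linarith

lemma two_zpow_le_cC {m : ℤ} (hm : 0 ≤ m) (H : Finset X) : (2 : ℝ) ^ m ≤ D.cC m H := by
  unfold cC
  rw [phi_of_nonneg hm]
  exact le_add_of_nonneg_right (Finset.sum_nonneg fun _ _ => (phi_pos _).le)

lemma card_lev_le_cC {m : ℤ} (H : Finset X) (s : Finset X) (hs : s ⊆ D.supp H)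
    (hl : ∀ e ∈ s, (D.lev H e : ℤ) ≤ m) : (s.card : ℝ) ≤ D.cC m H := by
  unfold cC
  refine le_trans ?_ (le_add_of_nonneg_left (phi_pos m).le)
  refine le_trans ?_ (Finset.sum_le_sum_of_subset_of_nonneg hs fun i _ _ => (phi_pos _).le)
  refine le_trans (le_of_eq (by simp)) (Finset.sum_le_sum (s := s) (f := fun _ => (1 : ℝ))
    fun e he => one_le_phi (by linarith [hl e he]))

lemma sum_quarter_cC_le {H : Finset X} (hH : H ∈ D.Hs) :
    ∑ m ∈ D.stages, (4 : ℝ) ^ (-m) * D.cC m H ≤ 15 := by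
  unfold cC
  simp_rw [mul_add, Finset.mul_sum, Finset.sum_add_distrib]
  have h0 := sum_quarter_phi_le D.stages 0
  simp only [Nat.cast_zero, sub_zero, pow_zero, mul_one] at h0
  have h1 : ∑ m ∈ D.stages, ∑ e ∈ D.supp H, (4 : ℝ) ^ (-m) * phi (m - D.lev H e) ≤ 12 := by
    rw [Finset.sum_comm]
    refine le_trans (Finset.sum_le_sum fun e _ => sum_quarter_phi_le D.stages _) ?_
    rw [← Finset.mul_sum]
    linarith [D.kraft H hH]
  linarith

lemma bb_zero : bb 0 = 1 := by unfold bb; norm_num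

lemma bb_one : bb 1 = 3 := by unfold bb; norm_num

lemma bb_le_five (d : ℤ) : bb d ≤ 5 := by
  unfold bb
  have : (0 : ℝ) < (2 : ℝ) ^ (-d) := by positivity
  linarith

lemma bb_step (d : ℤ) : bb (d - 1) + 4 * (2 : ℝ) ^ (-d) = bb d := by
  unfold bb
  rw [show -(d - 1) = -d + 1 by ring, zpow_add₀ (by norm_num), zpow_one]
  ring

end LevelSys

end Vale.Agent.P034
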